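import Vale.Agent.P054.T2.H269.SideCount

/-!
# P054 / T3, section C: the count on one leaf with the product of the degrees of the leaf system

Same statements as `H269.side_up`, ..., `H269.side_count`, with `∏ i, τ i` (`τ i` = bound for the
degree of the `i`-th leaf equation of `s`) in place of `W ^ (n - σ)`.
-/

set_option autoImplicit false
set_option linter.all false

namespace Vale.Agent.P054.T3.H807

open MvPolynomial Finset Module
open Vale.Agent.P054.T2 Vale.Agent.P054.T2.SecC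
open Vale.Agent.P054.T2.H686 (mu meet Qf Crd leaf)
open Vale.Agent.P054.T2.H580 (Vw hilbF rkF IsFilt)
open Vale.Agent.P054.T2.H930 (germ mx grad J)
open Vale.Agent.P054.T2.H269 (Cn Cc Cs one_le_Cn isFilt_wt X_mem_wt rename_inl_mem P_eq
  hilbF_germs_le side_additive side_low filter_subset_cls lim_pow lim_pow' growth_of_freq CG_mono)

variable {n : ℕ} {A : Finset (ZZ n × ZZ n)} {W D σ v : ℕ} (S : Side n A W D σ v)

/-- **weighted upper bound** for the intersection of the class primes on one leaf -/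
theorem side_upP (s : ZZ n) {τ : Fin (n - σ) → ℕ} (hτ1 : ∀ i, 1 ≤ τ i)
    (hτ : ∀ i, (S.f s i).totalDegree ≤ τ i) (G : Finset (ZZ n × ZZ n)) (hGA : G ⊆ A)
    (hGs : ∀ e ∈ G, e.1 = s) (m : ℕ) : W ^ v * hilbF (Vw ℝ (wt W)) (⨅ e ∈ G, S.P e) m ≤
      Cn n * D ^ (2 * (n + 1)) * (∏ i, τ i) * (m + W) ^ (σ + v) := by
  classical
  have hW := S.hW
  have hD := S.hD
  have hσ := S.hσ
  have hv := S.hv
  set c : ℕ := (n - σ) + (2 * (n + 1) - v) with hc
  have hcn : c + (σ + v) = n + 2 * (n + 1) := by omega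
  have hV := isFilt_wt (n := n) hW
  have hInf : (⨅ e ∈ G, S.P e) = ⨅ e ∈ G, germ (hx s e.2) (S.F s) := by
    refine iInf_congr fun e => iInf_congr fun he => P_eq S (hGs e he)
  have h1 := hilbF_germs_le hV G (fun e => hx s e.2) (S.F s)
    (fun e he j => by have := S.hzero e (hGA he) j; rwa [hGs e he] at this)
    (fun e he => by have := S.hind e (hGA he); rwa [hGs e he] at this)
    (Fin.append τ (fun _ => D * W))
    (fun j => by
      refine Fin.addCases (fun i => ?_) (fun i => ?_) j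
      · rw [Fin.append_left]; exact hτ1 i
      · rw [Fin.append_right]; exact Nat.mul_pos hD hW)
    (fun j => by
      refine Fin.addCases (fun i => ?_) (fun i => ?_) j
      · rw [Fin.append_left, S.hleft]; exact rename_inl_mem (hτ i)
      · rw [Fin.append_right]; exact S.hFdeg s i)
    m (m + W - 1)
  rw [← hInf] at h1
  have hprod : ∏ j, (Fin.append τ (fun _ => D * W) :
      Fin ((n - σ) + (2 * (n + 1) - v)) → ℕ) j = (∏ i, τ i) * (D * W) ^ (2 * (n + 1) - v) := by
    rw [Fin.prod_univ_add]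
    simp [Fin.append_left, Fin.append_right]
  rw [hprod] at h1
  have hT : m + W - 1 + 1 = m + W := by omega
  rw [hT] at h1
  set N : ℕ := m + c * (m + W - 1) with hN
  have hKn : c + 1 ≤ 3 * n + 3 := by omega
  -- dimension of the weighted space
  have h2 : finrank ℝ (Vw ℝ (wt (n := n) W) N) ≤ (N + 1) ^ n * (N / W + 1) ^ (2 * (n + 1)) := by
    refine (H580.finrank_Vw_le _ (wt_ne hW) N).trans (le_of_eq ?_)
    rw [Fintype.prod_sum_type, Fintype.prod_sum_type]
    simp only [wt, Sum.elim_inl, Sum.elim_inr, Nat.div_one, Finset.prod_const, Finset.card_univ,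
      Fintype.card_fin]
    ring
  have hN1 : N + 1 ≤ (3 * n + 3) * (m + W) := by
    have : N + 1 ≤ (c + 1) * (m + W) := by
      have h3 : c * (m + W - 1) ≤ c * (m + W) := Nat.mul_le_mul_left _ (by omega)
      have h4 : (c + 1) * (m + W) = c * (m + W) + (m + W) := by ring
      omega
    exact this.trans (Nat.mul_le_mul_right _ hKn)
  have hN2 : W * (N / W + 1) ≤ (3 * n + 3) * (m + W) := by
    have h3 : W * (N / W) ≤ N := Nat.mul_div_le N W
    have h5 : W * (N / W + 1) ≤ N + W := by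
      have : W * (N / W + 1) = W * (N / W) + W := by ring
      omega
    have : N + W ≤ (c + 1) * (m + W) := by
      rcases Nat.eq_zero_or_pos c with h0 | h0
      · have : N = m := by rw [hN, h0]; ring
        rw [this, h0]; omega
      · have h6 : c * (m + W - 1) + c = c * (m + W) := by
          have : m + W - 1 + 1 = m + W := hT
          calc c * (m + W - 1) + c = c * (m + W - 1 + 1) := by ring
            _ = _ := by rw [this]
        have h4 : (c + 1) * (m + W) = c * (m + W) + (m + W) := by ring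
        omega
    exact h5.trans (this.trans (Nat.mul_le_mul_right _ hKn))
  set H : ℕ := hilbF (Vw ℝ (wt W)) (⨅ e ∈ G, S.P e) m with hH
  set X : ℕ := m + W with hX
  have hXpos : 0 < X := by omega
  have h3 : W ^ (2 * (n + 1)) * (X ^ c * H) ≤
      (∏ i, τ i) * (D * W) ^ (2 * (n + 1) - v) * ((3 * n + 3) * X) ^ (n + 2 * (n + 1)) := by
    calc W ^ (2 * (n + 1)) * (X ^ c * H)
        ≤ W ^ (2 * (n + 1)) * ((∏ i, τ i) * (D * W) ^ (2 * (n + 1) - v) *
          ((N + 1) ^ n * (N / W + 1) ^ (2 * (n + 1)))) :=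
          Nat.mul_le_mul_left _ (h1.trans (Nat.mul_le_mul_left _ h2))
      _ = (∏ i, τ i) * (D * W) ^ (2 * (n + 1) - v) *
          ((N + 1) ^ n * (W * (N / W + 1)) ^ (2 * (n + 1))) := by
          rw [mul_pow W (N / W + 1)]; ring
      _ ≤ (∏ i, τ i) * (D * W) ^ (2 * (n + 1) - v) *
          (((3 * n + 3) * X) ^ n * ((3 * n + 3) * X) ^ (2 * (n + 1))) := by gcongr
      _ = _ := by rw [← pow_add]
  have h4 : (W ^ (2 * (n + 1) - v) * X ^ c) * (W ^ v * H) ≤
      (W ^ (2 * (n + 1) - v) * X ^ c) *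
        (Cn n * D ^ (2 * (n + 1)) * (∏ i, τ i) * X ^ (σ + v)) := by
    calc (W ^ (2 * (n + 1) - v) * X ^ c) * (W ^ v * H)
        = W ^ (2 * (n + 1)) * (X ^ c * H) := by
          have : W ^ (2 * (n + 1)) = W ^ (2 * (n + 1) - v) * W ^ v := by
            rw [← pow_add]; congr 1; omega
          rw [this]; ring
      _ ≤ _ := h3
      _ = (∏ i, τ i) * (D ^ (2 * (n + 1) - v) * W ^ (2 * (n + 1) - v)) *
          ((3 * n + 3) ^ (n + 2 * (n + 1)) * (X ^ c * X ^ (σ + v))) := by
          rw [mul_pow D W, mul_pow (3 * n + 3) X, ← pow_add X, hcn]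
      _ ≤ (∏ i, τ i) * (D ^ (2 * (n + 1)) * W ^ (2 * (n + 1) - v)) *
          ((3 * n + 3) ^ (n + 2 * (n + 1)) * (X ^ c * X ^ (σ + v))) := by
          gcongr
          omega
      _ = _ := by
          have : 3 * n + 2 = n + 2 * (n + 1) := by ring
          unfold Cn
          rw [this]; ring
  have hpos : 0 < W ^ (2 * (n + 1) - v) * X ^ c := by positivity
  exact Nat.le_of_mul_le_mul_left h4 hpos

open Classical in
/-- **number of classes on one leaf** (any vertical dimension) -/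
theorem side_card_classesP (s : ZZ n) {τ : Fin (n - σ) → ℕ} (hτ1 : ∀ i, 1 ≤ τ i)
    (hτ : ∀ i, (S.f s i).totalDegree ≤ τ i) (G : Finset (ZZ n × ZZ n)) (hGA : G ⊆ A)
    (hGs : ∀ e ∈ G, e.1 = s) :
    (G.image S.P).card ≤ Cc n * D ^ (2 * (n + 1)) * (∏ i, τ i) := by
  have hW := S.hW
  have hσ := S.hσ
  have hv := S.hv
  have hV := isFilt_wt (n := n) hW
  obtain ⟨a, ha⟩ := side_additive S s G hGA hGs
  set Q := G.image S.P with hQ
  have key : ∀ k : ℕ, (Q.card * W ^ (σ + v)) * (k + 1) ^ (σ + v) ≤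
      (Cn n * D ^ (2 * (n + 1)) * (∏ i, τ i)) *
        ((k + 1) * ((σ + v) * W) + (a + W)) ^ (σ + v) := by
    intro k
    have h1 : ∀ q ∈ Q, (W * (k + 1)) ^ σ * (k + 1) ^ v ≤
        hilbF (Vw ℝ (wt W)) q ((k + 1) * ((σ + v) * W)) := by
      intro q hq
      obtain ⟨e, he, rfl⟩ := Finset.mem_image.1 hq
      have h2 := side_low S (hGA he) (W * (k + 1) - 1) k
      have h3 : 0 < W * (k + 1) := by positivity
      have h4 : W * (k + 1) - 1 + 1 = W * (k + 1) := by omega
      rw [h4] at h2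
      refine h2.trans (hV.hilbF_mono _ ?_)
      have h5 : σ * (W * (k + 1) - 1) ≤ σ * (W * (k + 1)) := Nat.mul_le_mul_left _ (by omega)
      have h6 : v * (k * W) ≤ v * (W * (k + 1)) := by
        apply Nat.mul_le_mul_left
        nlinarith
      calc σ * (W * (k + 1) - 1) + v * (k * W) ≤ σ * (W * (k + 1)) + v * (W * (k + 1)) :=
            Nat.add_le_add h5 h6
        _ = _ := by ring
    have h2 : Q.card * ((W * (k + 1)) ^ σ * (k + 1) ^ v) ≤
        hilbF (Vw ℝ (wt W)) (⨅ e ∈ G, S.P e) ((k + 1) * ((σ + v) * W) + a) := by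
      refine le_trans ?_ (ha _)
      rw [← smul_eq_mul, ← Finset.sum_const]
      exact Finset.sum_le_sum h1
    have h3 := side_upP S s hτ1 hτ G hGA hGs ((k + 1) * ((σ + v) * W) + a)
    calc (Q.card * W ^ (σ + v)) * (k + 1) ^ (σ + v)
        = W ^ v * (Q.card * ((W * (k + 1)) ^ σ * (k + 1) ^ v)) := by
          rw [mul_pow, pow_add, pow_add]; ring
      _ ≤ W ^ v * hilbF (Vw ℝ (wt W)) (⨅ e ∈ G, S.P e) ((k + 1) * ((σ + v) * W) + a) :=
          Nat.mul_le_mul_left _ h2
      _ ≤ _ := h3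
      _ = _ := by rw [add_assoc]
  have h1 := lim_pow key
  have h2 : Q.card * W ^ (σ + v) ≤
      (Cn n * D ^ (2 * (n + 1)) * (∏ i, τ i) * (σ + v) ^ (σ + v)) * W ^ (σ + v) := by
    refine h1.trans (le_of_eq ?_)
    rw [mul_pow]; ring
  have h3 := Nat.le_of_mul_le_mul_right h2 (by positivity)
  refine h3.trans ?_
  have h4 : (σ + v) ^ (σ + v) ≤ (3 * n + 2) ^ (3 * n + 2) := by
    calc (σ + v) ^ (σ + v) ≤ (3 * n + 2) ^ (σ + v) := Nat.pow_le_pow_left (by omega) _
      _ ≤ _ := Nat.pow_le_pow_right (by omega) (by omega)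
  unfold Cc
  calc Cn n * D ^ (2 * (n + 1)) * (∏ i, τ i) * (σ + v) ^ (σ + v)
      ≤ Cn n * D ^ (2 * (n + 1)) * (∏ i, τ i) * (3 * n + 2) ^ (3 * n + 2) :=
        Nat.mul_le_mul_left _ h4
    _ = _ := by ring

/-- **[C1], small classes**: any `v` -/
theorem side_count_smallP (s : ZZ n) {τ : Fin (n - σ) → ℕ} (hτ1 : ∀ i, 1 ≤ τ i)
    (hτ : ∀ i, (S.f s i).totalDegree ≤ τ i) (B : Finset (ZZ n × ZZ n)) (hBA : B ⊆ A)
    (hBs : ∀ e ∈ B, e.1 = s) {g : ℕ} (hg : ∀ e ∈ B, (S.cls e).card ≤ g) :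
    B.card ≤ Cc n * D ^ (2 * (n + 1)) * (∏ i, τ i) * g := by
  classical
  rw [Finset.card_eq_sum_card_image S.P B]
  calc ∑ q ∈ B.image S.P, (B.filter fun e => S.P e = q).card
      ≤ ∑ q ∈ B.image S.P, g := by
        refine Finset.sum_le_sum fun q hq => ?_
        obtain ⟨e, he, rfl⟩ := Finset.mem_image.1 hq
        exact (Finset.card_le_card (filter_subset_cls S s hBA hBs he)).trans (hg e he)
    _ = (B.image S.P).card * g := by rw [Finset.sum_const, smul_eq_mul]
    _ ≤ _ := Nat.mul_le_mul_right _ (side_card_classesP S s hτ1 hτ B hBA hBs)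

/-- **[C1], large classes**: `v = 0`, polynomial growth form -/
theorem side_count_growthP (S : Side n A W D σ 0) (s : ZZ n) {τ : Fin (n - σ) → ℕ}
    (hτ1 : ∀ i, 1 ≤ τ i) (hτ : ∀ i, (S.f s i).totalDegree ≤ τ i) (B : Finset (ZZ n × ZZ n))
    (hBA : B ⊆ A) (hBs : ∀ e ∈ B, e.1 = s) {M : ℕ}
    (hq : ∀ e ∈ B, ∃ m₀ : ℕ, ∀ m, m₀ ≤ m →
      m ^ σ * (S.cls e).card ≤ M * hilbF (Vw ℝ (wt W)) (S.P e) m) :
    B.card ≤ M * (Cn n * D ^ (2 * (n + 1)) * (∏ i, τ i)) := by
  classical
  obtain ⟨a, ha⟩ := side_additive S s B hBA hBs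
  choose! m₀ hm₀ using hq
  refine lim_pow' (e := σ) (a := a + W) (m₀ := ∑ e ∈ B, m₀ e) fun m hm => ?_
  have h1 : B.card * m ^ σ ≤ M * ∑ q ∈ B.image S.P, hilbF (Vw ℝ (wt W)) q m := by
    rw [Finset.card_eq_sum_card_image S.P B, Finset.sum_mul, Finset.mul_sum]
    refine Finset.sum_le_sum fun q hq => ?_
    obtain ⟨e, he, rfl⟩ := Finset.mem_image.1 hq
    have h2 := hm₀ e he m ((Finset.single_le_sum (f := m₀) (fun _ _ => Nat.zero_le _) he).trans hm)
    calc (B.filter fun e' => S.P e' = S.P e).card * m ^ σ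
        ≤ (S.cls e).card * m ^ σ :=
          Nat.mul_le_mul_right _ (Finset.card_le_card (filter_subset_cls S s hBA hBs he))
      _ = m ^ σ * (S.cls e).card := mul_comm _ _
      _ ≤ _ := h2
  have h2 := side_upP S s hτ1 hτ B hBA hBs (m + a)
  rw [pow_zero, one_mul, Nat.add_zero] at h2
  calc B.card * m ^ σ ≤ M * ∑ q ∈ B.image S.P, hilbF (Vw ℝ (wt W)) q m := h1
    _ ≤ M * hilbF (Vw ℝ (wt W)) (⨅ e ∈ B, S.P e) (m + a) := Nat.mul_le_mul_left _ (ha m)
    _ ≤ M * (Cn n * D ^ (2 * (n + 1)) * (∏ i, τ i) * (m + a + W) ^ σ) :=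
        Nat.mul_le_mul_left _ h2
    _ = _ := by rw [add_assoc]; ring

open Classical in
/-- **[C1]**: the edges on the leaf of `s` which are countable from `s` -/
theorem side_countP (s : ZZ n) {τ : Fin (n - σ) → ℕ} (hτ1 : ∀ i, 1 ≤ τ i)
    (hτ : ∀ i, (S.f s i).totalDegree ≤ τ i) (N g : ℕ) :
    (A.filter fun e => e.1 = s ∧ S.Cnt N g e).card ≤
      Cs n * D ^ (2 * (n + 1)) * (∏ i, τ i) * ((N + 1) ^ σ + g) := by
  set B₁ := A.filter fun e => e.1 = s ∧ (S.cls e).card ≤ g with hB₁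
  set B₂ := A.filter fun e => e.1 = s ∧ (v = 0 ∧ ∃ a₀ : ℕ, ∀ K : ℕ, ∃ k, K ≤ k ∧
    (S.cls e).card * (k + σ).choose σ ≤
      2 * hilbF (Vw ℝ (wt W)) (S.P e) ((k + 1) * (N + 1) + a₀)) with hB₂
  have hsub : (A.filter fun e => e.1 = s ∧ S.Cnt N g e) ⊆ B₁ ∪ B₂ := by
    intro e he
    obtain ⟨heA, hes, h | h⟩ := Finset.mem_filter.1 he
    · exact Finset.mem_union_left _ (Finset.mem_filter.2 ⟨heA, hes, h⟩)
    · exact Finset.mem_union_right _ (Finset.mem_filter.2 ⟨heA, hes, h⟩)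
  have h1 : B₁.card ≤ Cc n * D ^ (2 * (n + 1)) * (∏ i, τ i) * g :=
    side_count_smallP S s hτ1 hτ B₁ (Finset.filter_subset _ _)
      (fun e he => (Finset.mem_filter.1 he).2.1) (fun e he => (Finset.mem_filter.1 he).2.2)
  have h2 : B₂.card ≤ ((4 ^ n * n.factorial * H819.CG n * 2) * (N + 1) ^ σ) *
      (Cn n * D ^ (2 * (n + 1)) * (∏ i, τ i)) := by
    by_cases hv : v = 0
    · subst hv
      refine side_count_growthP S s hτ1 hτ B₂ (Finset.filter_subset _ _)
        (fun e he => (Finset.mem_filter.1 he).2.1) fun e he => ?_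
      obtain ⟨heA, -, -, h⟩ := Finset.mem_filter.1 he
      exact growth_of_freq S heA h
    · have : B₂ = ∅ := by
        rw [Finset.eq_empty_iff_forall_notMem]
        intro e he
        exact hv (Finset.mem_filter.1 he).2.2.1
      rw [this, Finset.card_empty]
      exact Nat.zero_le _
  calc (A.filter fun e => e.1 = s ∧ S.Cnt N g e).card ≤ (B₁ ∪ B₂).card :=
        Finset.card_le_card hsub
    _ ≤ B₁.card + B₂.card := Finset.card_union_le _ _
    _ ≤ Cc n * D ^ (2 * (n + 1)) * (∏ i, τ i) * g +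
        ((4 ^ n * n.factorial * H819.CG n * 2) * (N + 1) ^ σ) *
          (Cn n * D ^ (2 * (n + 1)) * (∏ i, τ i)) := Nat.add_le_add h1 h2
    _ ≤ (Cc n + Cn n * (4 ^ n * n.factorial * H819.CG n * 2)) * D ^ (2 * (n + 1)) *
          (∏ i, τ i) * g +
        (Cc n + Cn n * (4 ^ n * n.factorial * H819.CG n * 2)) * D ^ (2 * (n + 1)) *
          (∏ i, τ i) * (N + 1) ^ σ := by
        refine Nat.add_le_add ?_ ?_
        · have : Cc n ≤ Cc n + Cn n * (4 ^ n * n.factorial * H819.CG n * 2) :=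
            Nat.le_add_right _ _
          gcongr
        · calc ((4 ^ n * n.factorial * H819.CG n * 2) * (N + 1) ^ σ) *
                (Cn n * D ^ (2 * (n + 1)) * (∏ i, τ i))
              = (Cn n * (4 ^ n * n.factorial * H819.CG n * 2)) * D ^ (2 * (n + 1)) *
                (∏ i, τ i) * (N + 1) ^ σ := by ring
            _ ≤ _ := by
                have : Cn n * (4 ^ n * n.factorial * H819.CG n * 2) ≤
                    Cc n + Cn n * (4 ^ n * n.factorial * H819.CG n * 2) := Nat.le_add_left _ _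
                gcongr
    _ = Cs n * D ^ (2 * (n + 1)) * (∏ i, τ i) * ((N + 1) ^ σ + g) := by
        unfold Cs; ring

end Vale.Agent.P054.T3.H807
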