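import Vale.Agent.P054.T2.H580.Sys

set_option autoImplicit false
set_option linter.all false

/-!
# P054 / T3: the gains (natural numbers)

`v` = values of a family along the fine levels, nondecreasing on `[0, k₀]`; the degrees of its
system at the level `k₀` are `b ^ kap (k₀ + 1) v j`, `j < v k₀`.  `b ^ ell ≤ t`, `k₀ ≤ ell + x`.
-/

namespace Vale.Agent.P054.T3.H807

open Finset
open Vale.Agent.P054.T2.H580 (kap kap_le_of_lt)

/-- the product of the degrees of the system of `v` at the level `k₀` -/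
def pdeg (b k₀ : ℕ) (v : ℕ → ℕ) : ℕ := ∏ j : Fin (v k₀), b ^ kap (k₀ + 1) v (j : ℕ)

theorem one_le_pdeg {b k₀ : ℕ} {v : ℕ → ℕ} (hb : 1 ≤ b) : 1 ≤ pdeg b k₀ v := by
  unfold pdeg
  exact Finset.one_le_prod'' fun j => Nat.one_le_pow _ _ hb

theorem pdeg_le {b k₀ : ℕ} {v : ℕ → ℕ} (hb : 1 ≤ b)
    (hmono : ∀ k l : ℕ, k ≤ l → l < k₀ + 1 → v k ≤ v l) : pdeg b k₀ v ≤ b ^ (k₀ * v k₀) := by
  unfold pdeg
  calc ∏ j : Fin (v k₀), b ^ kap (k₀ + 1) v (j : ℕ) ≤ ∏ _j : Fin (v k₀), b ^ k₀ :=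
        Finset.prod_le_prod' fun j _ =>
          Nat.pow_le_pow_right hb (kap_le_of_lt (k₀ + 1) v hmono j k₀ j.2)
    _ = _ := by rw [Finset.prod_const, Finset.card_univ, Fintype.card_fin, ← pow_mul]

/-- the first factor is at most `b ^ f` if the first drop is at a level `≤ f` -/
theorem pdeg_le_first {b k₀ f : ℕ} {v : ℕ → ℕ} (hb : 1 ≤ b)
    (hmono : ∀ k l : ℕ, k ≤ l → l < k₀ + 1 → v k ≤ v l) (hf : f ≤ k₀) (hvf : 1 ≤ v f) :
    pdeg b k₀ v ≤ b ^ (f + k₀ * (v k₀ - 1)) := by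
  classical
  have hv1 : 1 ≤ v k₀ := hvf.trans (hmono f k₀ hf (Nat.lt_succ_self _))
  unfold pdeg
  rw [← Finset.mul_prod_erase univ _ (Finset.mem_univ (⟨0, hv1⟩ : Fin (v k₀))), pow_add]
  refine Nat.mul_le_mul ?_ ?_
  · exact Nat.pow_le_pow_right hb (kap_le_of_lt (k₀ + 1) v hmono 0 f hvf)
  · calc ∏ j ∈ univ.erase (⟨0, hv1⟩ : Fin (v k₀)), b ^ kap (k₀ + 1) v (j : ℕ)
        ≤ ∏ _j ∈ univ.erase (⟨0, hv1⟩ : Fin (v k₀)), b ^ k₀ :=
          Finset.prod_le_prod' fun j _ =>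
            Nat.pow_le_pow_right hb (kap_le_of_lt (k₀ + 1) v hmono j k₀ j.2)
      _ = _ := by
          rw [Finset.prod_const, Finset.card_erase_of_mem (Finset.mem_univ _), Finset.card_univ,
            Fintype.card_fin, ← pow_mul]

/-- without a gain -/
theorem pdeg_nogain {b t ell x k₀ : ℕ} {v : ℕ → ℕ} (hb : 1 ≤ b)
    (hmono : ∀ k l : ℕ, k ≤ l → l < k₀ + 1 → v k ≤ v l) (hell : b ^ ell ≤ t)
    (hk₀ : k₀ ≤ ell + x) : pdeg b k₀ v ≤ b ^ (x * v k₀) * t ^ v k₀ := by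
  refine (pdeg_le hb hmono).trans ?_
  calc b ^ (k₀ * v k₀) ≤ b ^ ((ell + x) * v k₀) :=
        Nat.pow_le_pow_right hb (Nat.mul_le_mul_right _ hk₀)
    _ = b ^ (x * v k₀) * (b ^ ell) ^ v k₀ := by rw [← pow_mul, ← pow_add]; congr 1; ring
    _ ≤ _ := Nat.mul_le_mul_left _ (Nat.pow_le_pow_left hell _)

/-- **the gain of an early first drop**: the first drop of the family is at a level
`f ≤ ell - g` -/
theorem pdeg_gain {b t ell x g k₀ f : ℕ} {v : ℕ → ℕ} (hb : 1 ≤ b)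
    (hmono : ∀ k l : ℕ, k ≤ l → l < k₀ + 1 → v k ≤ v l) (hell : b ^ ell ≤ t)
    (hk₀ : k₀ ≤ ell + x) (hf : f ≤ k₀) (hvf : 1 ≤ v f) (hg : f + g ≤ ell) :
    pdeg b k₀ v * b ^ g ≤ b ^ (x * v k₀) * t ^ v k₀ := by
  have hv1 : 1 ≤ v k₀ := hvf.trans (hmono f k₀ hf (Nat.lt_succ_self _))
  obtain ⟨c, hc⟩ : ∃ c, v k₀ = c + 1 := ⟨v k₀ - 1, by omega⟩
  refine (Nat.mul_le_mul_right _ (pdeg_le_first hb hmono hf hvf)).trans ?_
  rw [← pow_add]
  have h1 : f + k₀ * (v k₀ - 1) + g ≤ x * v k₀ + ell * v k₀ := by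
    rw [hc]
    have h2 : k₀ * (c + 1 - 1) ≤ (ell + x) * c := by
      rw [Nat.add_sub_cancel]
      exact Nat.mul_le_mul_right _ hk₀
    nlinarith
  calc b ^ (f + k₀ * (v k₀ - 1) + g) ≤ b ^ (x * v k₀ + ell * v k₀) := Nat.pow_le_pow_right hb h1
    _ = b ^ (x * v k₀) * (b ^ ell) ^ v k₀ := by rw [← pow_mul, ← pow_add]
    _ ≤ _ := Nat.mul_le_mul_left _ (Nat.pow_le_pow_left hell _)

/-- the gain, `∃` form: either the family has dropped at the level `ell - g` (gain `b ^ g`) or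
`v (ell - g) = 0` -/
theorem pdeg_gain_or {b t ell x g k₀ : ℕ} {v : ℕ → ℕ} (hb : 1 ≤ b)
    (hmono : ∀ k l : ℕ, k ≤ l → l < k₀ + 1 → v k ≤ v l) (hell : b ^ ell ≤ t)
    (hk₀ : k₀ ≤ ell + x) (hg : g ≤ ell) (hgk : ell - g ≤ k₀) :
    pdeg b k₀ v * b ^ g ≤ b ^ (x * v k₀) * t ^ v k₀ ∨ v (ell - g) = 0 := by
  rcases Nat.eq_zero_or_pos (v (ell - g)) with h | h
  · exact Or.inr h
  · exact Or.inl (pdeg_gain hb hmono hell hk₀ hgk h (by omega))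

/-- **the vertex gain** from Lemma V at a level `k'`: `F` has its first drop at a level
`f ≤ k'`, `f + g ≤ ell`; `T₁ ≤ b ^ f` is the degree of its first equation. -/
theorem vert_gain {b t ell x g k' f C a n p N S T₁ : ℕ} {v : ℕ → ℕ} (hb : 1 ≤ b)
    (hmono : ∀ k l : ℕ, k ≤ l → l < k' + 1 → v k ≤ v l) (hell : b ^ ell ≤ t)
    (hk' : k' ≤ ell + x) (hf : f ≤ k') (hvf : 1 ≤ v f) (hg : f + g ≤ ell)
    (hvn : v k' ≤ n + 1) (hT₁ : T₁ ≤ b ^ f)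
    (hV : S ≤ C * b ^ a * (pdeg b k' v * t ^ (n + 1 - v k')) + C * b ^ a * (T₁ * p))
    (hN1 : t ^ (n + 1) ≤ N) (hN2 : t * p ≤ N) :
    S * b ^ g ≤ (C * b ^ a * (b ^ (x * (n + 1)) + 1)) * N := by
  have h1 : pdeg b k' v * t ^ (n + 1 - v k') * b ^ g ≤ b ^ (x * (n + 1)) * N := by
    calc pdeg b k' v * t ^ (n + 1 - v k') * b ^ g
        = (pdeg b k' v * b ^ g) * t ^ (n + 1 - v k') := by ring
      _ ≤ (b ^ (x * v k') * t ^ v k') * t ^ (n + 1 - v k') :=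
          Nat.mul_le_mul_right _ (pdeg_gain hb hmono hell hk' hf hvf hg)
      _ = b ^ (x * v k') * t ^ (n + 1) := by
          rw [mul_assoc, ← pow_add, Nat.add_sub_cancel' hvn]
      _ ≤ b ^ (x * (n + 1)) * N :=
          Nat.mul_le_mul (Nat.pow_le_pow_right hb (Nat.mul_le_mul_left _ hvn)) hN1
  have h2 : T₁ * p * b ^ g ≤ N := by
    calc T₁ * p * b ^ g ≤ b ^ f * p * b ^ g := by gcongr
      _ = b ^ (f + g) * p := by rw [pow_add]; ring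
      _ ≤ b ^ ell * p := Nat.mul_le_mul_right _ (Nat.pow_le_pow_right hb hg)
      _ ≤ t * p := Nat.mul_le_mul_right _ hell
      _ ≤ N := hN2
  calc S * b ^ g ≤ (C * b ^ a * (pdeg b k' v * t ^ (n + 1 - v k')) + C * b ^ a * (T₁ * p)) * b ^ g :=
        Nat.mul_le_mul_right _ hV
    _ = C * b ^ a * (pdeg b k' v * t ^ (n + 1 - v k') * b ^ g) + C * b ^ a * (T₁ * p * b ^ g) := by
        ring
    _ ≤ C * b ^ a * (b ^ (x * (n + 1)) * N) + C * b ^ a * N :=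
        Nat.add_le_add (Nat.mul_le_mul_left _ h1) (Nat.mul_le_mul_left _ h2)
    _ = _ := by ring

/-- the gain of one side through its product of degrees; `c = v k₀ = n - σ` -/
theorem side_gain_deg {b t ell x g k₀ f N S c : ℕ} {v : ℕ → ℕ} (hb : 1 ≤ b)
    (hmono : ∀ k l : ℕ, k ≤ l → l < k₀ + 1 → v k ≤ v l) (hell : b ^ ell ≤ t)
    (hk₀ : k₀ ≤ ell + x) (hf : f ≤ k₀) (hvf : 1 ≤ v f) (hg : f + g ≤ ell) (hS : S ≤ N)
    (hc : v k₀ = c) :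
    S * pdeg b k₀ v * b ^ g ≤ b ^ (x * c) * (N * t ^ c) := by
  have h := pdeg_gain hb hmono hell hk₀ hf hvf hg
  rw [hc] at h
  calc S * pdeg b k₀ v * b ^ g = S * (pdeg b k₀ v * b ^ g) := by ring
    _ ≤ N * (b ^ (x * c) * t ^ c) := Nat.mul_le_mul hS h
    _ = _ := by ring

/-- the gain of one side through the number of its vertices -/
theorem side_gain_vert {b t ell x g k₀ N S c Θ : ℕ} {v : ℕ → ℕ} (hb : 1 ≤ b)
    (hmono : ∀ k l : ℕ, k ≤ l → l < k₀ + 1 → v k ≤ v l) (hell : b ^ ell ≤ t)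
    (hk₀ : k₀ ≤ ell + x) (hS : S * b ^ g ≤ Θ * N) (hc : v k₀ = c) :
    S * pdeg b k₀ v * b ^ g ≤ (Θ * b ^ (x * c)) * (N * t ^ c) := by
  have h := pdeg_nogain hb hmono hell hk₀
  rw [hc] at h
  calc S * pdeg b k₀ v * b ^ g = (S * b ^ g) * pdeg b k₀ v := by ring
    _ ≤ (Θ * N) * (b ^ (x * c) * t ^ c) := Nat.mul_le_mul hS h
    _ = _ := by ring

end Vale.Agent.P054.T3.H807
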