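import Vale.Agent.P054.T2.H686.Deg0
import Vale.Agent.P054.T2.H686.Assembly
import Vale.Agent.P054.T3.H533.Seam0

set_option autoImplicit false
set_option linter.all false

/-!
# P054 / T3: leaves of dimension `0`, product of the degrees

If `N = #σ` polynomials of degrees `≤ τ i` vanish on the points `x e` and have independent gradients
there, the number of points is at most `(N + 1) ^ N * ∏ τ i`.  Edge counts from this.
-/

namespace Vale.Agent.P054.T3.H807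

open Finset MvPolynomial Module
open Vale.Agent.P054.T2 Vale.Agent.P054.T2.SecC
open Vale.Agent.P054.T2.H686 (E zt Ez Sz Gm mu Ez_fst Ez_snd Ez_swap card_Ez_leaf_le mu_comm
  hilb_germ_le rk_evd_eq_rkY rkY_of_card_le)
open Vale.Agent.P054.T2.H580 (rk evd hilb)
open Vale.Agent.P054.T2.H441 (rkY)

section points

variable {ι σ K : Type*} [Field K]

/-- **isolated points**: at most `(N + 1) ^ N * ∏ τ i` -/
theorem card_le_of_fullP [Fintype σ] [DecidableEq σ] [DecidableEq (σ → K)] (x : ι → σ → K)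
    (A : Finset ι) (f : Fin (Fintype.card σ) → MvPolynomial σ K) (τ : Fin (Fintype.card σ) → ℕ)
    (hτ1 : ∀ j, 1 ≤ τ j) (hd : ∀ j, (f j).totalDegree ≤ τ j)
    (hev : ∀ e ∈ A, ∀ j, eval (x e) (f j) = 0)
    (hind : ∀ e ∈ A, LinearIndependent K (fun j => H930.grad (x e) (f j))) :
    (A.image x).card ≤ (Fintype.card σ + 1) ^ Fintype.card σ * ∏ j, τ j := by
  classical
  set d : ℕ → ℕ := fun j => if h : j < Fintype.card σ then τ ⟨j, h⟩ else 1 with hdd
  have h1 := hilb_germ_le x A f d (fun j => by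
      simp only [hdd]
      split_ifs
      · exact hτ1 _
      · exact le_rfl) (fun j => by
      simp only [hdd, j.2, dif_pos, Fin.eta]
      exact hd j) hev hind le_rfl (A.image x).card
  have h0 : ∏ j ∈ range (Fintype.card σ), d j = ∏ j, τ j := by
    rw [Finset.prod_range]
    refine Finset.prod_congr rfl fun i _ => ?_
    simp only [hdd, i.2, dif_pos, Fin.eta]
  rw [Nat.sub_self, pow_zero, mul_one, h0] at h1
  have h2 : rk K (fun i => evd (A.image x).card (x i)) A ≤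
      hilb (⨅ e ∈ A, H930.germ (x e) f) (A.image x).card := by
    refine H580.rk_evd_le_hilb _ x A ?_ _
    intro e he F hF
    simp only [Submodule.mem_iInf] at hF
    exact H930.eval_eq_zero_of_mem_germ (hev e he) (hF e he)
  rw [rk_evd_eq_rkY x A, rkY_of_card_le _ le_rfl] at h2
  refine (h2.trans h1).trans (le_of_eq ?_)
  rw [mul_comm]

/-- the same with `c` equations, `c = card σ` -/
theorem card_le_of_fullP' [Fintype σ] [DecidableEq σ] [DecidableEq (σ → K)] (x : ι → σ → K)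
    (A : Finset ι) {c : ℕ} (hc : c = Fintype.card σ) (f : Fin c → MvPolynomial σ K)
    (τ : Fin c → ℕ) (hτ1 : ∀ j, 1 ≤ τ j) (hd : ∀ j, (f j).totalDegree ≤ τ j)
    (hev : ∀ e ∈ A, ∀ j, eval (x e) (f j) = 0)
    (hind : ∀ e ∈ A, LinearIndependent K (fun j => H930.grad (x e) (f j))) :
    (A.image x).card ≤ (c + 1) ^ c * ∏ j, τ j := by
  subst hc
  exact card_le_of_fullP x A f τ hτ1 hd hev hind

end points

variable {n : ℕ}

/-- edges with first end point `s` when the `mu`-values lie in a set `U` -/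
theorem card_leaf_edges {P : Finset (E n)} {B : E n ≃ₗᵢ[ℝ] E n} (hB : Gm P B) (hn : 2 ≤ n) {k : ℕ}
    (s : ZZ n) (A : Finset (ZZ n × ZZ n)) (hA : A ⊆ Ez P B k) (hs : ∀ e ∈ A, e.1 = s) :
    A.card ≤ k * (A.image fun e => mu e.1 e.2).card := by
  classical
  have h1 : A.card ≤ (A.image Prod.snd).card := by
    refine (Finset.card_image_of_injOn ?_).ge
    intro e he e' he' h
    exact Prod.ext ((hs e he).trans (hs e' he').symm) h
  refine h1.trans ?_
  refine card_Ez_leaf_le hB hn s _ ?_ _ ?_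
  · intro r hr
    obtain ⟨e, he, rfl⟩ := Finset.mem_image.1 hr
    rw [← hs e he]
    exact hA he
  · intro r hr
    obtain ⟨e, he, rfl⟩ := Finset.mem_image.1 hr
    rw [← hs e he]
    exact Finset.mem_image.2 ⟨e, he, rfl⟩

/-- **[DEG0]**: `σ₁ = 0`, product of the degrees -/
theorem card_deg0 {P : Finset (E n)} {B : E n ≃ₗᵢ[ℝ] E n} (hB : Gm P B) (hn : 2 ≤ n) {k : ℕ}
    (A : Finset (ZZ n × ZZ n)) (hA : A ⊆ Ez P B k) (Sg₁ : Finset (ZZ n))
    (hE1 : ∀ e ∈ A, e.1 ∈ Sg₁) {c : ℕ} (hc : c = n) (f : ZZ n → Fin c → MvPolynomial (Fin n) ℝ)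
    (τ : ZZ n → Fin c → ℕ) (hτ1 : ∀ s ∈ Sg₁, ∀ j, 1 ≤ τ s j)
    (hd : ∀ s ∈ Sg₁, ∀ j, (f s j).totalDegree ≤ τ s j)
    (hev : ∀ e ∈ A, ∀ j, eval (mu e.1 e.2) (f e.1 j) = 0)
    (hind : ∀ e ∈ A, LinearIndependent ℝ (fun j => H930.grad (mu e.1 e.2) (f e.1 j))) :
    A.card ≤ ∑ s ∈ Sg₁, k * ((n + 1) ^ n * ∏ j, τ s j) := by
  classical
  rw [Finset.card_eq_sum_card_fiberwise (f := Prod.fst) (t := Sg₁) (fun e he => hE1 e he)]
  refine Finset.sum_le_sum fun s hs => ?_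
  refine (card_leaf_edges hB hn s _ ((Finset.filter_subset _ _).trans hA)
    (fun e he => (Finset.mem_filter.1 he).2)).trans (Nat.mul_le_mul_left _ ?_)
  have h := card_le_of_fullP' (K := ℝ) (σ := Fin n) (fun e : ZZ n × ZZ n => mu e.1 e.2)
    (A.filter fun e => e.1 = s) (c := c) (by rw [Fintype.card_fin]; exact hc) (f s) (τ s)
    (hτ1 s hs) (hd s hs)
    (fun e he j => by
      obtain ⟨h1, h2⟩ := Finset.mem_filter.1 he
      rw [← h2]
      exact hev e h1 j)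
    (fun e he => by
      obtain ⟨h1, h2⟩ := Finset.mem_filter.1 he
      rw [← h2]
      exact hind e h1)
  have h2 : (c + 1) ^ c = (n + 1) ^ n := by rw [hc]
  rw [h2] at h
  exact h

/-- **[DEG0]** mirrored: `σ₂ = 0` -/
theorem card_deg0' {P : Finset (E n)} {B : E n ≃ₗᵢ[ℝ] E n} (hB : Gm P B) (hn : 2 ≤ n) {k : ℕ}
    (A : Finset (ZZ n × ZZ n)) (hA : A ⊆ Ez P B k) (Sg₂ : Finset (ZZ n))
    (hE2 : ∀ e ∈ A, e.2 ∈ Sg₂) {c : ℕ} (hc : c = n) (f : ZZ n → Fin c → MvPolynomial (Fin n) ℝ)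
    (τ : ZZ n → Fin c → ℕ) (hτ1 : ∀ s ∈ Sg₂, ∀ j, 1 ≤ τ s j)
    (hd : ∀ s ∈ Sg₂, ∀ j, (f s j).totalDegree ≤ τ s j)
    (hev : ∀ e ∈ A, ∀ j, eval (mu e.1 e.2) (f e.2 j) = 0)
    (hind : ∀ e ∈ A, LinearIndependent ℝ (fun j => H930.grad (mu e.1 e.2) (f e.2 j))) :
    A.card ≤ ∑ s ∈ Sg₂, k * ((n + 1) ^ n * ∏ j, τ s j) := by
  classical
  have hmu : ∀ e ∈ swp A, mu e.1 e.2 = mu e.swap.1 e.swap.2 := by
    intro e he
    exact mu_comm _ _
  have h1 := card_deg0 hB hn (swp A)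
    (fun e he => by
      have := Ez_swap (hA (mem_swp.1 he))
      simpa using this) Sg₂
    (fun e he => hE2 _ (mem_swp.1 he)) hc f τ hτ1 hd
    (fun e he j => by
      have h2 := hev _ (mem_swp.1 he) j
      rw [hmu e he]
      exact h2)
    (fun e he => by
      have h2 := hind _ (mem_swp.1 he)
      rw [hmu e he]
      exact h2)
  have h3 : (swp A).card = A.card := Finset.card_map _
  rwa [h3] at h1

open Vale.Agent.P054.T2.H307 (fib mem_fib mem_van xL) in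
open Vale.Agent.P054.T2.H580 (kap) in
/-- **[DEG0] for the output of the lossless section A**: the leaves of the first end points have
dimension `0` at the level `k₀` -/
theorem card_deg0_famU {P : Finset (E n)} {B : E n ≃ₗᵢ[ℝ] E n} (hB : Gm P B) (hn : 2 ≤ n) {k : ℕ}
    {A : Finset (ZZ n × ZZ n)} (hA : A ⊆ Ez P B k) (Sg₁ : Finset (ZZ n))
    (hE1 : ∀ e ∈ A, e.1 ∈ Sg₁) {b β M K₁ : ℕ} {v : ℕ → ℕ} (hb : 1 ≤ b)
    (hU : H461.FamU (xL (K := ℝ) (n := n)) Prod.fst b β M K₁ A v) {k₀ : ℕ} (hk₀ : k₀ ≤ K₁)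
    (hv : v k₀ = n) :
    A.card ≤ Sg₁.card * (k * ((n + 1) ^ n * ∏ j : Fin (v k₀), b ^ kap (k₀ + 1) v (j : ℕ))) := by
  classical
  obtain ⟨f, hf, hind⟩ := hU.sys hk₀
  have h := card_deg0 hB hn A hA Sg₁ hE1 hv f (fun _ j => b ^ kap (k₀ + 1) v (j : ℕ))
    (fun _ _ _ => Nat.one_le_pow _ _ hb)
    (fun s _ j => (mem_restrictTotalDegree _ _ _).1 (mem_van.1 (hf s j)).1)
    (fun e he j => (mem_van.1 (hf e.1 j)).2 e (mem_fib.2 ⟨he, rfl⟩)) hind
  rwa [Finset.sum_const, smul_eq_mul] at h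

open Vale.Agent.P054.T2.H307 (fib mem_fib mem_van xL) in
open Vale.Agent.P054.T2.H580 (kap) in
/-- mirrored -/
theorem card_deg0_famU' {P : Finset (E n)} {B : E n ≃ₗᵢ[ℝ] E n} (hB : Gm P B) (hn : 2 ≤ n) {k : ℕ}
    {A : Finset (ZZ n × ZZ n)} (hA : A ⊆ Ez P B k) (Sg₂ : Finset (ZZ n))
    (hE2 : ∀ e ∈ A, e.2 ∈ Sg₂) {b β M K₁ : ℕ} {v : ℕ → ℕ} (hb : 1 ≤ b)
    (hU : H461.FamU (xL (K := ℝ) (n := n)) Prod.snd b β M K₁ A v) {k₀ : ℕ} (hk₀ : k₀ ≤ K₁)
    (hv : v k₀ = n) :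
    A.card ≤ Sg₂.card * (k * ((n + 1) ^ n * ∏ j : Fin (v k₀), b ^ kap (k₀ + 1) v (j : ℕ))) := by
  classical
  obtain ⟨f, hf, hind⟩ := hU.sys hk₀
  have h := card_deg0' hB hn A hA Sg₂ hE2 hv f (fun _ j => b ^ kap (k₀ + 1) v (j : ℕ))
    (fun _ _ _ => Nat.one_le_pow _ _ hb)
    (fun s _ j => (mem_restrictTotalDegree _ _ _).1 (mem_van.1 (hf s j)).1)
    (fun e he j => (mem_van.1 (hf e.2 j)).2 e (mem_fib.2 ⟨he, rfl⟩)) hind
  rwa [Finset.sum_const, smul_eq_mul] at h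

end Vale.Agent.P054.T3.H807
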