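import Vale.Agent.P054.T3.H807.SecCNum
import Vale.Agent.P054.T3.H637.CaseG

/-!
# P054 / T3, section C: the normalised inequality for the case theorem `H637.hcase_G`
-/

set_option autoImplicit false
set_option linter.all false

namespace Vale.Agent.P054.T3.H807

open MvPolynomial Finset Module
open Vale.Agent.P054.T2 Vale.Agent.P054.T2.SecC
open Vale.Agent.P054.T2.H686 (mu meet Qf Crd leaf E zt dists)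
open Vale.Agent.P054.T2.H580 (Vw hilbF rkF IsFilt wh)
open Vale.Agent.P054.T2.H930 (germ mx grad J ZData Pt edgePt)
open Vale.Agent.P054.T2.H269 (Cc Cs)
open Vale.Agent.P054.T3.H637 (CntG)

variable {n : ℕ}

theorem CntQ.of_cntG {A : Finset (ZZ n × ZZ n)} {W D σ v : ℕ} {S : Side n A W D σ v}
    {N G Gf : ℕ} {e : ZZ n × ZZ n} (h : CntG S N G Gf e) :
    CntQ S (σ < n) N (if σ < n then G else Gf) e := by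
  rcases h with ⟨h1, h2⟩ | ⟨h1, h2⟩
  · rw [if_pos h1]
    exact Or.inr ⟨h1, h2⟩
  · rw [if_neg (by omega)]
    exact Or.inl h2

/-- the count of one leaf: `t ^ σ + G` if `σ < n`, `Gf` if `σ = n` -/
def leafB (n σ t G Gf : ℕ) : ℕ := if σ < n then t ^ σ + G else Gf

theorem leafB_eq (n σ t G Gf : ℕ) :
    (if σ < n then t ^ σ else 0) + (if σ < n then G else Gf) = leafB n σ t G Gf := by
  unfold leafB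
  split_ifs <;> simp

/-- **section C, normalised**, with the output of `H637.hcase_G`: bipartite, product of the
degrees, remaining edges `R`, gain for `σ = n` through `Gf`. -/
theorem secC_G {E0 E1 A : Finset (ZZ n × ZZ n)} {N c₀ c₁ c₂ σ₁ σ₂ W D v₁ v₂ : ℕ}
    (Z : ZData ℝ n E0 E1 A (wh (Crd n) (Pt n) W) N c₀ c₁ c₂ σ₁ σ₂)
    (S₁ : Side n A W D σ₁ v₂) (S₂ : Side n (swp A) W D σ₂ v₁)
    (hK1 : ∀ e ∈ A, ∀ F : MvPolynomial (ZI n) ℝ, rename (fun x => Sum.inr (Sum.inr x)) F ∈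
      germ (edgePt e.1 e.2) Z.F ↔ F ∈ S₁.Pr e)
    (hK2 : ∀ e ∈ A, ∀ F : MvPolynomial (ZI n) ℝ, rename (fun x => Sum.inr (Sum.inl x)) F ∈
      germ (edgePt e.1 e.2) Z.F ↔ F ∈ S₂.Pr e.swap)
    (hhd : ∀ i, Z.h i ∈ Vw ℝ (wh (Crd n) (Pt n) W) (D * W))
    (hhd' : ∀ i, Z.h' i ∈ Vw ℝ (wh (Crd n) (Pt n) W) (D * W))
    (hc₁ : c₁ + v₁ = 2 * (n + 1)) (hc₂ : c₂ + v₂ = 2 * (n + 1))
    -- the products of the degrees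
    {τF : Fin c₀ → ℕ} (hτF1 : ∀ i, 1 ≤ τF i) (hτF : ∀ i, (Z.f i).totalDegree ≤ τF i)
    {τ₁ : ZZ n → Fin (n - σ₁) → ℕ} (hτ₁1 : ∀ s i, 1 ≤ τ₁ s i)
    {τ₂ : ZZ n → Fin (n - σ₂) → ℕ} (hτ₂1 : ∀ s i, 1 ≤ τ₂ s i)
    {pF pd₁ pd₂ : ℕ} (hpF : ∏ i, τF i ≤ pF)
    (P : Finset (E n)) (B : E n ≃ₗᵢ[ℝ] E n) {t : ℕ} (ht : (dists P).card ≤ t) (ht1 : 1 ≤ t)
    {Sg₁ Sg₂ : Finset (ZZ n)} (hS1 : Sg₁ ⊆ H84.Sg P B) (hS2 : Sg₂ ⊆ H84.Sg P B)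
    (hE1 : ∀ e ∈ A, e.1 ∈ Sg₁) (hE2 : ∀ e ∈ A, e.2 ∈ Sg₂)
    (hτ₁ : ∀ s ∈ Sg₁, ∀ i, (S₁.f s i).totalDegree ≤ τ₁ s i)
    (hτ₂ : ∀ s ∈ Sg₂, ∀ i, (S₂.f s i).totalDegree ≤ τ₂ s i)
    (hpd₁ : ∀ s ∈ Sg₁, ∏ i, τ₁ s i ≤ pd₁) (hpd₂ : ∀ s ∈ Sg₂, ∏ i, τ₂ s i ≤ pd₂)
    {N₁ N₂ G₁ G₂ Gf₁ Gf₂ b a₁ : ℕ} (R : Finset (ZZ n × ZZ n))
    (hcase : ∀ e ∈ A, e ∈ R ∨ CntG S₁ N₁ G₁ Gf₁ e ∨ CntG S₂ N₂ G₂ Gf₂ e.swap ∨ BB S₁ S₂ e)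
    (hN₁ : N₁ + 1 ≤ 9 * t) (hN₂ : N₂ + 1 ≤ 9 * t)
    (hD : D ≤ b ^ a₁) (hCs : Cs n ≤ b) (hCx : H819.Cx n ≤ b) (h9 : 9 ^ n ≤ b)
    (h100 : 4 * 25 ^ n ≤ b) :
    A.card ≤ R.card + b ^ (a₁ * (4 * (n + 1)) + 2) *
      (Sg₁.card * (pd₁ * leafB n σ₁ t G₁ Gf₁) + Sg₂.card * (pd₂ * leafB n σ₂ t G₂ Gf₂) +
        pF * t ^ (σ₁ + σ₂)) := by
  have h := secC_ineqP Z S₁ S₂ hK1 hK2 hhd hhd' hc₁ hc₂ hτF1 hτF hτ₁1 hτ₂1 hpF P B ht ht1 hS1 hS2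
    hE1 hE2 hτ₁ hτ₂ hpd₁ hpd₂ (q₁ := σ₁ < n) (q₂ := σ₂ < n)
    (κ₁ := if σ₁ < n then t ^ σ₁ else 0) (κ₂ := if σ₂ < n then t ^ σ₂ else 0)
    (G₁ := if σ₁ < n then G₁ else Gf₁) (G₂ := if σ₂ < n then G₂ else Gf₂)
    (fun h => by rw [if_pos h]) (fun h => by rw [if_pos h]) R
    (fun e he => by
      rcases hcase e he with h | h | h | h
      · exact Or.inl h
      · exact Or.inr (Or.inl (CntQ.of_cntG h))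
      · exact Or.inr (Or.inr (Or.inl (CntQ.of_cntG h)))
      · exact Or.inr (Or.inr (Or.inr h)))
    hN₁ hN₂ hD hCs hCx h9 h100
  rwa [leafB_eq, leafB_eq] at h

end Vale.Agent.P054.T3.H807
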