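import Vale.Agent.P054.T3.H807.SecCP
import Vale.Agent.P054.T2.H84.SecCIneq

/-!
# P054 / T3, section C: the normalised inequality (bipartite, product of the degrees)
-/

set_option autoImplicit false
set_option linter.all false

namespace Vale.Agent.P054.T3.H807

open MvPolynomial Finset Module
open Vale.Agent.P054.T2 Vale.Agent.P054.T2.SecC
open Vale.Agent.P054.T2.H686 (mu meet Qf Crd leaf E zt dists)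
open Vale.Agent.P054.T2.H580 (Vw hilbF rkF IsFilt wh)
open Vale.Agent.P054.T2.H930 (germ mx grad J ZData Pt edgePt)
open Vale.Agent.P054.T2.H441 (hF)
open Vale.Agent.P054.T2.H269 (Cc Cs)

variable {n : ℕ}

/-- natural arithmetic of one leaf, product of the degrees -/
theorem leaf_natP {n σ κ a₁ a₂ D pd Cst b t G : ℕ} (hD : D ≤ b ^ a₁)
    (hCst : Cst ≤ b) (hb : 1 ≤ b) :
    Cst * D ^ a₂ * pd * (9 ^ n * κ + G) ≤ b ^ (a₁ * a₂ + 1) * (pd * (9 ^ n * κ + G)) := by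
  calc Cst * D ^ a₂ * pd * (9 ^ n * κ + G) ≤
      b * (b ^ a₁) ^ a₂ * pd * (9 ^ n * κ + G) := by gcongr
    _ = _ := by rw [← pow_mul]; ring

theorem pow_N_le {n σ N t : ℕ} (hσ : σ ≤ n) (hN : N + 1 ≤ 9 * t) :
    (N + 1) ^ σ ≤ 9 ^ n * t ^ σ := by
  calc (N + 1) ^ σ ≤ (9 * t) ^ σ := Nat.pow_le_pow_left hN _
    _ = 9 ^ σ * t ^ σ := mul_pow _ _ _
    _ ≤ 9 ^ n * t ^ σ := Nat.mul_le_mul_right _ (Nat.pow_le_pow_right (by norm_num) hσ)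

/-- natural arithmetic of the pairs, product of the degrees -/
theorem pair_natP {n σ₁ σ₂ a₁ a₃ D pd Cst b t : ℕ} (h₁ : σ₁ ≤ n) (h₂ : σ₂ ≤ n) (ht : 1 ≤ t)
    (hD : D ≤ b ^ a₁) (hCst : Cst ≤ b) (h100 : 4 * 25 ^ n ≤ b) :
    Cst * D ^ a₃ * pd * ((2 * (4 * t + 1) ^ σ₁) * (2 * (4 * t + 1) ^ σ₂)) ≤
      b ^ (a₁ * a₃ + 2) * (pd * t ^ (σ₁ + σ₂)) := by
  have h3 : ∀ σ : ℕ, σ ≤ n → (4 * t + 1) ^ σ ≤ 5 ^ n * t ^ σ := by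
    intro σ hσ
    calc (4 * t + 1) ^ σ ≤ (5 * t) ^ σ := Nat.pow_le_pow_left (by omega) _
      _ = 5 ^ σ * t ^ σ := mul_pow _ _ _
      _ ≤ 5 ^ n * t ^ σ := Nat.mul_le_mul_right _ (Nat.pow_le_pow_right (by norm_num) hσ)
  have h4 : (2 * (4 * t + 1) ^ σ₁) * (2 * (4 * t + 1) ^ σ₂) ≤ b * t ^ (σ₁ + σ₂) := by
    calc (2 * (4 * t + 1) ^ σ₁) * (2 * (4 * t + 1) ^ σ₂) ≤
        (2 * (5 ^ n * t ^ σ₁)) * (2 * (5 ^ n * t ^ σ₂)) := by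
          gcongr
          · exact h3 σ₁ h₁
          · exact h3 σ₂ h₂
      _ = (4 * 25 ^ n) * t ^ (σ₁ + σ₂) := by
          rw [show (25 : ℕ) = 5 * 5 by norm_num, mul_pow, pow_add]; ring
      _ ≤ _ := Nat.mul_le_mul_right _ h100
  calc Cst * D ^ a₃ * pd * ((2 * (4 * t + 1) ^ σ₁) * (2 * (4 * t + 1) ^ σ₂)) ≤
      b * (b ^ a₁) ^ a₃ * pd * (b * t ^ (σ₁ + σ₂)) := by gcongr
    _ = _ := by rw [← pow_mul]; ring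

/-- a product of degree bounds `≤ W`, one of which is `≤ W₁` -/
theorem prod_le_one_factor {m : ℕ} (τ : Fin m → ℕ) {W W₁ : ℕ} (hτ : ∀ i, τ i ≤ W) (i₀ : Fin m)
    (h₀ : τ i₀ ≤ W₁) : ∏ i, τ i ≤ W₁ * W ^ (m - 1) := by
  classical
  rw [← Finset.mul_prod_erase univ τ (Finset.mem_univ i₀)]
  refine Nat.mul_le_mul h₀ ?_
  refine (Finset.prod_le_prod' (fun i _ => hτ i)).trans (le_of_eq ?_)
  rw [Finset.prod_const, Finset.card_erase_of_mem (Finset.mem_univ _), Finset.card_univ,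
    Fintype.card_fin]

theorem prod_le_pow {m : ℕ} (τ : Fin m → ℕ) {W : ℕ} (hτ : ∀ i, τ i ≤ W) :
    ∏ i, τ i ≤ W ^ m := by
  refine (Finset.prod_le_prod' (fun i _ => hτ i)).trans (le_of_eq ?_)
  rw [Finset.prod_const, Finset.card_univ, Fintype.card_fin]

/-- **section C, normalised**: bipartite, product of the degrees. -/
theorem secC_ineqP {E0 E1 A : Finset (ZZ n × ZZ n)} {N c₀ c₁ c₂ σ₁ σ₂ W D v₁ v₂ : ℕ}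
    (Z : ZData ℝ n E0 E1 A (wh (Crd n) (Pt n) W) N c₀ c₁ c₂ σ₁ σ₂)
    (S₁ : Side n A W D σ₁ v₂) (S₂ : Side n (swp A) W D σ₂ v₁)
    (hK1 : ∀ e ∈ A, ∀ F : MvPolynomial (ZI n) ℝ, rename (fun x => Sum.inr (Sum.inr x)) F ∈
      germ (edgePt e.1 e.2) Z.F ↔ F ∈ S₁.Pr e)
    (hK2 : ∀ e ∈ A, ∀ F : MvPolynomial (ZI n) ℝ, rename (fun x => Sum.inr (Sum.inl x)) F ∈
      germ (edgePt e.1 e.2) Z.F ↔ F ∈ S₂.Pr e.swap)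
    (hhd : ∀ i, Z.h i ∈ Vw ℝ (wh (Crd n) (Pt n) W) (D * W))
    (hhd' : ∀ i, Z.h' i ∈ Vw ℝ (wh (Crd n) (Pt n) W) (D * W))
    (hc₁ : c₁ + v₁ = 2 * (n + 1)) (hc₂ : c₂ + v₂ = 2 * (n + 1))
    -- the products of the degrees
    {τF : Fin c₀ → ℕ} (hτF1 : ∀ i, 1 ≤ τF i) (hτF : ∀ i, (Z.f i).totalDegree ≤ τF i)
    {τ₁ : ZZ n → Fin (n - σ₁) → ℕ} (hτ₁1 : ∀ s i, 1 ≤ τ₁ s i)
    {τ₂ : ZZ n → Fin (n - σ₂) → ℕ} (hτ₂1 : ∀ s i, 1 ≤ τ₂ s i)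
    {pF pd₁ pd₂ : ℕ} (hpF : ∏ i, τF i ≤ pF)
    (P : Finset (E n)) (B : E n ≃ₗᵢ[ℝ] E n) {t : ℕ} (ht : (dists P).card ≤ t) (ht1 : 1 ≤ t)
    {Sg₁ Sg₂ : Finset (ZZ n)} (hS1 : Sg₁ ⊆ H84.Sg P B) (hS2 : Sg₂ ⊆ H84.Sg P B)
    (hE1 : ∀ e ∈ A, e.1 ∈ Sg₁) (hE2 : ∀ e ∈ A, e.2 ∈ Sg₂)
    (hτ₁ : ∀ s ∈ Sg₁, ∀ i, (S₁.f s i).totalDegree ≤ τ₁ s i)
    (hτ₂ : ∀ s ∈ Sg₂, ∀ i, (S₂.f s i).totalDegree ≤ τ₂ s i)
    (hpd₁ : ∀ s ∈ Sg₁, ∏ i, τ₁ s i ≤ pd₁) (hpd₂ : ∀ s ∈ Sg₂, ∏ i, τ₂ s i ≤ pd₂)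
    {N₁ N₂ G₁ G₂ κ₁ κ₂ b a₁ : ℕ} {q₁ q₂ : Prop}
    (hκ₁ : q₁ → t ^ σ₁ ≤ κ₁) (hκ₂ : q₂ → t ^ σ₂ ≤ κ₂) (R : Finset (ZZ n × ZZ n))
    (hcase : ∀ e ∈ A, e ∈ R ∨ CntQ S₁ q₁ N₁ G₁ e ∨ CntQ S₂ q₂ N₂ G₂ e.swap ∨ BB S₁ S₂ e)
    (hN₁ : N₁ + 1 ≤ 9 * t) (hN₂ : N₂ + 1 ≤ 9 * t)
    (hD : D ≤ b ^ a₁) (hCs : Cs n ≤ b) (hCx : H819.Cx n ≤ b) (h9 : 9 ^ n ≤ b)
    (h100 : 4 * 25 ^ n ≤ b) :
    A.card ≤ R.card + b ^ (a₁ * (4 * (n + 1)) + 2) *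
      (Sg₁.card * (pd₁ * (κ₁ + G₁)) + Sg₂.card * (pd₂ * (κ₂ + G₂)) +
        pF * t ^ (σ₁ + σ₂)) := by
  have hb1 : 1 ≤ b := by
    have h3 : 1 ≤ 9 ^ n := Nat.one_le_pow _ _ (by norm_num)
    omega
  have hmain := secC_prod Z S₁ S₂ hK1 hK2 hhd hhd' hc₁ hc₂ hτF1 hτF hτ₁1 hτ₂1 P B ht hS1 hS2
    hE1 hE2 hτ₁ hτ₂ (κ₁ := 9 ^ n * κ₁) (κ₂ := 9 ^ n * κ₂)
    (fun h => (pow_N_le S₁.hσ hN₁).trans (Nat.mul_le_mul_left _ (hκ₁ h)))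
    (fun h => (pow_N_le S₂.hσ hN₂).trans (Nat.mul_le_mul_left _ (hκ₂ h))) R hcase
  have e1 : b ^ (a₁ * (2 * (n + 1)) + 1) * b ≤ b ^ (a₁ * (4 * (n + 1)) + 2) := by
    rw [← pow_succ]
    exact Nat.pow_le_pow_right hb1 (by nlinarith)
  set bb := b ^ (a₁ * (4 * (n + 1)) + 2) with hbb
  have key : ∀ pd κ G : ℕ, Cs n * D ^ (2 * (n + 1)) * pd * (9 ^ n * κ + G) ≤
      bb * (pd * (κ + G)) := by
    intro pd κ G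
    refine (leaf_natP (σ := 0) (t := 0) hD hCs hb1).trans ?_
    have h2 : 9 ^ n * κ + G ≤ b * (κ + G) := by
      have h4 : 9 ^ n * κ ≤ b * κ := Nat.mul_le_mul_right _ h9
      have h5 : G ≤ b * G := Nat.le_mul_of_pos_left _ (by omega)
      calc 9 ^ n * κ + G ≤ b * κ + b * G := Nat.add_le_add h4 h5
        _ = _ := by ring
    calc b ^ (a₁ * (2 * (n + 1)) + 1) * (pd * (9 ^ n * κ + G)) ≤
        b ^ (a₁ * (2 * (n + 1)) + 1) * (pd * (b * (κ + G))) := by gcongr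
      _ = b ^ (a₁ * (2 * (n + 1)) + 1) * b * (pd * (κ + G)) := by ring
      _ ≤ _ := Nat.mul_le_mul_right _ e1
  have h1 : ∑ s ∈ Sg₁, Cs n * D ^ (2 * (n + 1)) * (∏ i, τ₁ s i) * (9 ^ n * κ₁ + G₁) ≤
      Sg₁.card * (bb * (pd₁ * (κ₁ + G₁))) := by
    refine (Finset.sum_le_card_nsmul _ _ _ fun s hs => ?_).trans (le_of_eq (by rw [smul_eq_mul]))
    exact (key _ _ _).trans (Nat.mul_le_mul_left _ (Nat.mul_le_mul_right _ (hpd₁ s hs)))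
  have h2 : ∑ s ∈ Sg₂, Cs n * D ^ (2 * (n + 1)) * (∏ i, τ₂ s i) * (9 ^ n * κ₂ + G₂) ≤
      Sg₂.card * (bb * (pd₂ * (κ₂ + G₂))) := by
    refine (Finset.sum_le_card_nsmul _ _ _ fun s hs => ?_).trans (le_of_eq (by rw [smul_eq_mul]))
    exact (key _ _ _).trans (Nat.mul_le_mul_left _ (Nat.mul_le_mul_right _ (hpd₂ s hs)))
  have h3 : (H819.Cx n * D ^ (4 * (n + 1)) * ∏ i, τF i) *
      ((2 * (4 * t + 1) ^ σ₁) * (2 * (4 * t + 1) ^ σ₂)) ≤ bb * (pF * t ^ (σ₁ + σ₂)) := by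
    refine (pair_natP S₁.hσ S₂.hσ ht1 hD hCx h100).trans ?_
    exact Nat.mul_le_mul_left _ (Nat.mul_le_mul_right _ hpF)
  calc A.card ≤ _ := hmain
    _ ≤ R.card + (Sg₁.card * (bb * (pd₁ * (κ₁ + G₁))) + Sg₂.card * (bb * (pd₂ * (κ₂ + G₂))) +
        bb * (pF * t ^ (σ₁ + σ₂))) :=
        Nat.add_le_add_left (Nat.add_le_add (Nat.add_le_add h1 h2) h3) _
    _ = _ := by ring

end Vale.Agent.P054.T3.H807
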