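import Vale.Agent.P054.T2.H819.ZX
import Vale.Agent.P054.T2.H82.ABMain

/-!
# P054 / T3: the number of germ primes of `Z⁺` with the product of the degrees of the first block

Same as `H819.ZPairs`, `H819.ZX` and `H82.exists_primes`, with `∏ i, τ i` (`τ i` = bound for the
degree of the `i`-th equation of the first block) in place of `W ^ c₀`.
-/

set_option autoImplicit false
set_option linter.all false

open MvPolynomial Finset Module
open Vale.Agent.P054.T2
open Vale.Agent.P054.T2.H580 (hilbF IsFilt Vw wh)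
open Vale.Agent.P054.T2.H930 (germ grad edgePt hatPt sysZ ZData Pt)
open Vale.Agent.P054.T2.H686 (Crd mu meet Qf)
open Vale.Agent.P054.T2.H819 (wb wb_ne rename_inl_mem_Vw Cz Cx low_block card_image_le
  germ_incomparable sysZ_vert_linInd)

namespace Vale.Agent.P054.T3.H807

section block

variable {K : Type*} [Field K] {A B : Type*} [Fintype A] [DecidableEq A] [Fintype B]
  [DecidableEq B]

/-- **Upper bound** for the germs of a block system, normalised, product of the degrees. -/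
theorem up_blockP {ι : Type*} (x : ι → A ⊕ B → K) (S : Finset ι) {W D m l v : ℕ} (hW : 1 ≤ W)
    (hD : 1 ≤ D) (F : Fin (m + l) → MvPolynomial (A ⊕ B) K) (f : Fin m → MvPolynomial A K)
    (hF : ∀ i, F (Fin.castAdd l i) = rename Sum.inl (f i)) {τ : Fin m → ℕ} (hτ1 : ∀ i, 1 ≤ τ i)
    (hfdeg : ∀ i, (f i).totalDegree ≤ τ i)
    (hFdeg : ∀ j, F (Fin.natAdd m j) ∈ Vw K (wb A B W) (D * W))
    (h0 : ∀ e ∈ S, ∀ i, eval (x e) (F i) = 0)
    (hind : ∀ e ∈ S, LinearIndependent K (fun i => grad (x e) (F i)))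
    (hlv : l + v = Fintype.card B) (hm : m ≤ Fintype.card A) (n : ℕ) (hn : W ≤ n) :
    W ^ v * hilbF (Vw K (wb A B W)) (⨅ e ∈ S, germ (x e) F) n ≤
      (m + l + 2) ^ (Fintype.card A + Fintype.card B) * ((∏ i, τ i) * D ^ l) *
        n ^ ((Fintype.card A - m) + v) := by
  classical
  set dd : ℕ → ℕ := fun j => if h : j < m then τ ⟨j, h⟩ else D * W with hdd
  have h1 := H580.up_Vw (K := K) (wb A B W) (wb_ne hW) x S F dd
    (fun j _ => by
      simp only [hdd]
      split_ifs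
      · exact hτ1 _
      · exact Nat.mul_pos hD hW)
    (fun j => by
      refine Fin.addCases (fun i => ?_) (fun i => ?_) j
      · rw [hF]
        have : dd (Fin.castAdd l i : Fin (m + l)) = τ i := by
          simp [hdd]
        rw [this]
        exact rename_inl_mem_Vw W (hfdeg i)
      · have : dd (Fin.natAdd m i : Fin (m + l)) = D * W := by
          simp [hdd]
        rw [this]
        exact hFdeg i)
    h0 hind (by rw [Fintype.card_sum]; omega) n
    (fun i => by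
      rcases i with i | i
      · simp only [wb, Sum.elim_inl]; omega
      · simp only [wb, Sum.elim_inr]; exact hn) (by omega)
  have h2 : ∏ i, wb A B W i = W ^ l * W ^ v := by
    rw [Fintype.prod_sum_type, ← pow_add, hlv]
    simp [wb]
  have h3 : ∏ j ∈ range (m + l), dd j = (∏ i, τ i) * D ^ l * W ^ l := by
    rw [Finset.prod_range_add]
    have h4 : ∏ j ∈ range m, dd j = ∏ i, τ i := by
      rw [Finset.prod_range]
      refine Finset.prod_congr rfl fun i _ => ?_
      simp only [hdd, i.2, dif_pos, Fin.eta]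
    have h5 : ∏ j ∈ range l, dd (m + j) = (D * W) ^ l := by
      rw [Finset.prod_congr rfl (g := fun _ => D * W)]
      · rw [Finset.prod_const, Finset.card_range]
      · intro j _
        simp only [hdd]
        rw [dif_neg (by omega)]
    rw [h4, h5, mul_pow]
    ring
  have h6 : Fintype.card (A ⊕ B) - (m + l) = (Fintype.card A - m) + v := by
    rw [Fintype.card_sum]; omega
  rw [h2, h3, h6, Fintype.card_sum] at h1
  have hWl : 0 < W ^ l := by positivity
  refine Nat.le_of_mul_le_mul_left ?_ hWl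
  calc W ^ l * (W ^ v * hilbF (Vw K (wb A B W)) (⨅ e ∈ S, germ (x e) F) n) =
        W ^ l * W ^ v * hilbF (Vw K (wb A B W)) (⨅ e ∈ S, germ (x e) F) n := by ring
    _ ≤ _ := h1
    _ = _ := by ring

/-- **[ZPAIRS]** with the product of the degrees: the number of distinct germ primes of a block
system. -/
theorem card_block_primesP [DecidableEq (Ideal (MvPolynomial (A ⊕ B) K))] {ι : Type*}
    (x : ι → A ⊕ B → K) (S : Finset ι) {W D m l v : ℕ} (hW : 1 ≤ W) (hD : 1 ≤ D)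
    (F : Fin (m + l) → MvPolynomial (A ⊕ B) K) (f : Fin m → MvPolynomial A K)
    (hF : ∀ i, F (Fin.castAdd l i) = rename Sum.inl (f i)) {τ : Fin m → ℕ} (hτ1 : ∀ i, 1 ≤ τ i)
    (hfdeg : ∀ i, (f i).totalDegree ≤ τ i)
    (hFdeg : ∀ j, F (Fin.natAdd m j) ∈ Vw K (wb A B W) (D * W))
    (h0 : ∀ e ∈ S, ∀ i, eval (x e) (F i) = 0)
    (hf : ∀ e ∈ S, LinearIndependent K (fun i => grad (x e ∘ Sum.inl) (f i)))
    (hh : ∀ e ∈ S, LinearIndependent K (fun i : Fin l => fun b =>
      eval (x e) (pderiv (Sum.inr b) (F (Fin.natAdd m i))))) (hlv : l + v = Fintype.card B) :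
    (S.image fun e => germ (x e) F).card ≤
      Cz (Fintype.card A) (Fintype.card B) * ((∏ i, τ i) * D ^ l) := by
  classical
  rcases S.eq_empty_or_nonempty with rfl | ⟨i₀, hi₀⟩
  · simp
  have hm : m ≤ Fintype.card A := by
    have := (hf i₀ hi₀).fintype_card_le_finrank
    rwa [Fintype.card_fin, Module.finrank_fintype_fun_eq_card] at this
  have hind : ∀ e ∈ S, LinearIndependent K (fun i => grad (x e) (F i)) := fun e he =>
    H930.grad_block_linInd (x e) F f hF (hf e he) (hh e he)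
  have hV : IsFilt (Vw K (wb A B W)) := H580.isFilt_Vw _ (wb_ne hW)
  have hXA : ∀ y, (X (Sum.inl y) : MvPolynomial (A ⊕ B) K) ∈ Vw K (wb A B W) 1 := fun y =>
    H580.X_mem_Vw (wb A B W) (Sum.inl y)
  have hXB : ∀ y, (X (Sum.inr y) : MvPolynomial (A ⊕ B) K) ∈ Vw K (wb A B W) W := fun y =>
    H580.X_mem_Vw (wb A B W) (Sum.inr y)
  have hX : ∀ y, (X y : MvPolynomial (A ⊕ B) K) ∈ Vw K (wb A B W) W := by
    intro y
    rcases y with y | y
    · exact hV.mono hW (hXA y)
    · exact hXB y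
  set s := (Fintype.card A - m) + v with hs
  have h1 := card_image_le hV hX S (fun e => germ (x e) F) (s := s)
    (fun e he => H930.germ_isPrime (h0 e he) (hind e he))
    (germ_incomparable x S F h0 hind) (M := W ^ v)
    (Δ := (m + l + 2) ^ (Fintype.card A + Fintype.card B) * ((∏ i, τ i) * D ^ l)) (a₁ := 0)
    (n₁ := W) (n₂ := 0) (Cl := s ^ s)
    (fun n hn => up_blockP x S hW hD F f hF hτ1 hfdeg hFdeg h0 hind hlv hm n hn)
    (fun e he n _ => low_block hV hW hXA hXB (x e) F f hF (hf e he) (hh e he) hlv (h0 e he) n)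
  refine h1.trans ?_
  have hsN : s ≤ Fintype.card A + Fintype.card B := by omega
  have hc : m + l ≤ Fintype.card A + Fintype.card B := by omega
  have hN : 0 < Fintype.card A + Fintype.card B ∨ s = 0 := by omega
  have h2 : 2 ^ s ≤ 2 ^ (Fintype.card A + Fintype.card B) := Nat.pow_le_pow_right (by norm_num) hsN
  have h3 : s ^ s ≤ (Fintype.card A + Fintype.card B) ^ (Fintype.card A + Fintype.card B) := by
    rcases hN with hN | hN
    · exact (Nat.pow_le_pow_left hsN s).trans (Nat.pow_le_pow_right hN hsN)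
    · rw [hN]
      rcases Nat.eq_zero_or_pos (Fintype.card A + Fintype.card B) with h | h
      · rw [h]
      · rw [pow_zero]
        exact Nat.one_le_pow _ _ h
  have h4 : (m + l + 2) ^ (Fintype.card A + Fintype.card B) ≤
      (Fintype.card A + Fintype.card B + 2) ^ (Fintype.card A + Fintype.card B) :=
    Nat.pow_le_pow_left (by omega) _
  calc 2 ^ s * s ^ s * ((m + l + 2) ^ (Fintype.card A + Fintype.card B) *
        ((∏ i, τ i) * D ^ l)) =
        (2 ^ s * s ^ s * (m + l + 2) ^ (Fintype.card A + Fintype.card B)) *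
          ((∏ i, τ i) * D ^ l) := by
        ring
    _ ≤ _ := Nat.mul_le_mul_right _ (Nat.mul_le_mul (Nat.mul_le_mul h2 h3) h4)

end block

section sys

variable {k : Type*} [Field k]

variable {A B C' : Type*} [Fintype A] [DecidableEq A] [Fintype B] [DecidableEq B] [Fintype C']
  [DecidableEq C']

/-- **[ZX]** with the product of the degrees, abstract form -/
theorem card_sysZ_primesP [DecidableEq (Ideal (MvPolynomial (A ⊕ (B ⊕ C')) k))] {ι : Type*}
    (x : ι → A ⊕ (B ⊕ C') → k) (S : Finset ι) {W D c₀ c₁ c₂ v₁ v₂ : ℕ} (hW : 1 ≤ W) (hD : 1 ≤ D)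
    (f : Fin c₀ → MvPolynomial A k) (h : Fin c₁ → MvPolynomial (A ⊕ B) k)
    (h' : Fin c₂ → MvPolynomial (A ⊕ C') k) {τ : Fin c₀ → ℕ} (hτ1 : ∀ i, 1 ≤ τ i)
    (hfd : ∀ i, (f i).totalDegree ≤ τ i)
    (hhd : ∀ i, h i ∈ Vw k (wb A B W) (D * W)) (hhd' : ∀ i, h' i ∈ Vw k (wb A C' W) (D * W))
    (h0 : ∀ e ∈ S, ∀ i, eval (x e) (sysZ f h h' i) = 0)
    (hf : ∀ e ∈ S, LinearIndependent k (fun i => grad (x e ∘ Sum.inl) (f i)))
    (hh : ∀ e ∈ S, LinearIndependent k (fun i => fun b =>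
      eval (x e ∘ Sum.map id Sum.inl) (pderiv (Sum.inr b) (h i))))
    (hh' : ∀ e ∈ S, LinearIndependent k (fun i => fun b =>
      eval (x e ∘ Sum.map id Sum.inr) (pderiv (Sum.inr b) (h' i))))
    (hv₁ : c₁ + v₁ = Fintype.card B) (hv₂ : c₂ + v₂ = Fintype.card C') :
    (S.image fun e => germ (x e) (sysZ f h h')).card ≤
      Cz (Fintype.card A) (Fintype.card B + Fintype.card C') *
        ((∏ i, τ i) * D ^ (c₁ + c₂)) := by
  have h1 := card_block_primesP (A := A) (B := B ⊕ C') x S hW hD (sysZ f h h') f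
    (fun i => H930.sysZ_f f h h' i) hτ1 hfd (fun j => by
      refine Fin.addCases (fun j => ?_) (fun j => ?_) j
      · rw [H930.sysZ_h]
        refine H580.rename_mem_Vw_of_weight (wb A (B ⊕ C') W) (wb A B W) _ ?_ (hhd j)
        rintro (y | y) <;> rfl
      · rw [H930.sysZ_h']
        refine H580.rename_mem_Vw_of_weight (wb A (B ⊕ C') W) (wb A C' W) _ ?_ (hhd' j)
        rintro (y | y) <;> rfl)
    h0 hf (fun e he => sysZ_vert_linInd f h h' (x e) (hh e he) (hh' e he))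
    (v := v₁ + v₂) (by rw [Fintype.card_sum]; omega)
  rwa [Fintype.card_sum] at h1

open Classical in
/-- **[ZX]** with the product of the degrees, for the data of section A: the number of germ primes
of `Z⁺` on `E2`. -/
theorem card_Z_primesP {n : ℕ} {E0 E1 E2 : Finset (((Fin (n + 1) → k) × (Fin (n + 1) → k)) ×
      ((Fin (n + 1) → k) × (Fin (n + 1) → k)))} {wt : Crd n ⊕ Pt n → ℕ}
    {N c₀ c₁ c₂ σ₁ σ₂ : ℕ} (Z : ZData k n E0 E1 E2 wt N c₀ c₁ c₂ σ₁ σ₂) {W D v₁ v₂ : ℕ}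
    (hW : 1 ≤ W) (hD : 1 ≤ D) (hwt : wt = Sum.elim (fun _ => 1) (fun _ => W))
    {τ : Fin c₀ → ℕ} (hτ1 : ∀ i, 1 ≤ τ i)
    (hf : ∀ i, (Z.f i).totalDegree ≤ τ i) (hh : ∀ i, Z.h i ∈ Vw k wt (D * W))
    (hh' : ∀ i, Z.h' i ∈ Vw k wt (D * W)) (hv₁ : c₁ + v₁ = 2 * (n + 1))
    (hv₂ : c₂ + v₂ = 2 * (n + 1)) :
    (E2.image fun e => germ (edgePt e.1 e.2) Z.F).card ≤
      Cx n * ((∏ i, τ i) * D ^ (c₁ + c₂)) := by
  subst hwt
  have hcB : Fintype.card (Pt n) = 2 * (n + 1) := by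
    rw [Fintype.card_sum, Fintype.card_fin]; ring
  have hcA : Fintype.card (Crd n) = 2 * n + 1 := by
    rw [Fintype.card_sum, Fintype.card_sum, Fintype.card_fin, Fintype.card_unit]; ring
  have h1 := card_sysZ_primesP (A := Crd n) (B := Pt n) (C' := Pt n)
    (fun e : ((Fin (n + 1) → k) × (Fin (n + 1) → k)) × ((Fin (n + 1) → k) × (Fin (n + 1) → k)) =>
      edgePt e.1 e.2) E2 hW hD Z.f Z.h Z.h' hτ1 hf hh hh'
    (fun e he i => Z.F_zero (Z.mem0 he) i) (fun e he => Z.f_ind e he)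
    (fun e he => by
      have := Z.h_ind e he
      rw [← H930.edgePt_comp_j1 e.1 e.2] at this
      exact this)
    (fun e he => by
      have := Z.h'_ind e he
      rw [← H930.edgePt_comp_j2 (Z.adj e (Z.mem0 he)).1 (Z.adj e (Z.mem0 he)).2] at this
      exact this) (v₁ := v₁) (v₂ := v₂) (by rw [hcB]; exact hv₁) (by rw [hcB]; exact hv₂)
  rw [hcA, hcB] at h1
  have h2 : 2 * (n + 1) + 2 * (n + 1) = 4 * (n + 1) := by ring
  rw [h2] at h1
  exact h1

end sys

section exists_primes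

open Vale.Agent.P054.T2.SecC
open Vale.Agent.P054.T2.H82 (Qe)

variable {n : ℕ}

/-- `H82.exists_primes` with the product of the degrees -/
theorem exists_primesP {E0 E1 A : Finset (ZZ n × ZZ n)} {N c₀ c₁ c₂ σ₁ σ₂ W D v₁ v₂ : ℕ}
    (Z : ZData ℝ n E0 E1 A (wh (Crd n) (Pt n) W) N c₀ c₁ c₂ σ₁ σ₂) (hW : 1 ≤ W) (hD : 1 ≤ D)
    {τ : Fin c₀ → ℕ} (hτ1 : ∀ i, 1 ≤ τ i)
    (hfd : ∀ i, (Z.f i).totalDegree ≤ τ i)
    (hhd : ∀ i, Z.h i ∈ Vw ℝ (wh (Crd n) (Pt n) W) (D * W))
    (hhd' : ∀ i, Z.h' i ∈ Vw ℝ (wh (Crd n) (Pt n) W) (D * W))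
    (hc₁ : c₁ + v₁ = 2 * (n + 1)) (hc₂ : c₂ + v₂ = 2 * (n + 1)) :
    ∃ X : Finset (Ideal (MvPolynomial (Crd n ⊕ (Pt n ⊕ Pt n)) ℝ)), (∀ e ∈ A, Qe Z e ∈ X) ∧
      X.card ≤ H819.Cx n * D ^ (4 * (n + 1)) * ∏ i, τ i := by
  classical
  have h1 := card_Z_primesP Z (W := W) (D := D) (v₁ := v₁) (v₂ := v₂) hW hD rfl hτ1 hfd hhd
    hhd' hc₁ hc₂
  refine ⟨@Finset.image _ _ (Classical.decEq _) (fun e => germ (edgePt e.1 e.2) Z.F) A, ?_, ?_⟩
  · intro e he
    rw [Finset.mem_image]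
    exact ⟨e, he, rfl⟩
  · have hinst : ∀ (i₁ i₂ : DecidableEq (Ideal (MvPolynomial (Crd n ⊕ (Pt n ⊕ Pt n)) ℝ))),
        (@Finset.image _ _ i₁ (fun e : ZZ n × ZZ n => germ (edgePt e.1 e.2) Z.F) A).card =
        (@Finset.image _ _ i₂ (fun e : ZZ n × ZZ n => germ (edgePt e.1 e.2) Z.F) A).card := by
      intro i₁ i₂
      obtain rfl : i₁ = i₂ := Subsingleton.elim _ _
      rfl
    have h2 : (@Finset.image _ _ (Classical.decEq _)
        (fun e : ZZ n × ZZ n => germ (edgePt e.1 e.2) Z.F) A).card ≤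
        H819.Cx n * ((∏ i, τ i) * D ^ (c₁ + c₂)) := (hinst _ _).trans_le h1
    refine h2.trans ?_
    have h4 : D ^ (c₁ + c₂) ≤ D ^ (4 * (n + 1)) := Nat.pow_le_pow_right hD (by omega)
    calc H819.Cx n * ((∏ i, τ i) * D ^ (c₁ + c₂))
        ≤ H819.Cx n * ((∏ i, τ i) * D ^ (4 * (n + 1))) :=
          Nat.mul_le_mul_left _ (Nat.mul_le_mul_left _ h4)
      _ = H819.Cx n * D ^ (4 * (n + 1)) * ∏ i, τ i := by ring

end exists_primes

end Vale.Agent.P054.T3.H807
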