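import Vale.Agent.P054.T3.H807.SideP
import Vale.Agent.P054.T3.H807.ZXP
import Vale.Agent.P054.T2.H428.MainC
import Vale.Agent.P054.T2.H84.BadSide

/-!
# P054 / T3, section C: the sum over the leaves and over the pairs of germs

Bipartite (`Sg₁` = first vertices, `Sg₂` = second vertices) and with the product of the degrees.
-/

set_option autoImplicit false
set_option linter.all false

namespace Vale.Agent.P054.T3.H807

open MvPolynomial Finset Module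
open Vale.Agent.P054.T2 Vale.Agent.P054.T2.SecC
open Vale.Agent.P054.T2.H686 (mu meet Qf Crd leaf E zt dists)
open Vale.Agent.P054.T2.H580 (Vw hilbF rkF IsFilt wh)
open Vale.Agent.P054.T2.H930 (germ mx grad J ZData Pt edgePt)
open Vale.Agent.P054.T2.H441 (hF)
open Vale.Agent.P054.T2.H269 (Cc Cs)

variable {n : ℕ}

open Classical in
/-- pairs on common classes: if on every fibre of `Q` the first vertices are at most `b₁` and the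
second ones at most `b₂`, then `|A| ≤ #Q * (b₁ * b₂)` -/
theorem card_fib {κ α β : Type*} (A : Finset (α × β)) (Q : α × β → κ) {b₁ b₂ : ℕ}
    (h1 : ∀ e₀ ∈ A, ∀ Y : Finset α, (∀ s ∈ Y, ∃ e ∈ A, Q e = Q e₀ ∧ e.1 = s) → Y.card ≤ b₁)
    (h2 : ∀ e₀ ∈ A, ∀ Y : Finset β, (∀ s ∈ Y, ∃ e ∈ A, Q e = Q e₀ ∧ e.2 = s) → Y.card ≤ b₂) :
    A.card ≤ (A.image Q).card * (b₁ * b₂) := by
  rw [Finset.card_eq_sum_card_image Q A]
  refine (Finset.sum_le_card_nsmul _ _ (b₁ * b₂) ?_).trans (le_of_eq (by rw [smul_eq_mul]))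
  intro q hq
  obtain ⟨e₀, he₀, rfl⟩ := Finset.mem_image.1 hq
  set Y₁ := (A.filter fun e => Q e = Q e₀).image Prod.fst with hY₁
  set Y₂ := (A.filter fun e => Q e = Q e₀).image Prod.snd with hY₂
  have h1' : Y₁.card ≤ b₁ := by
    refine h1 e₀ he₀ _ fun s hs => ?_
    obtain ⟨e, he, rfl⟩ := Finset.mem_image.1 hs
    obtain ⟨he1, he2⟩ := Finset.mem_filter.1 he
    exact ⟨e, he1, he2, rfl⟩
  have h2' : Y₂.card ≤ b₂ := by
    refine h2 e₀ he₀ _ fun s hs => ?_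
    obtain ⟨e, he, rfl⟩ := Finset.mem_image.1 hs
    obtain ⟨he1, he2⟩ := Finset.mem_filter.1 he
    exact ⟨e, he1, he2, rfl⟩
  have h3 : (A.filter fun e => Q e = Q e₀) ⊆ Y₁ ×ˢ Y₂ := by
    intro e he
    exact Finset.mem_product.2 ⟨Finset.mem_image_of_mem _ he, Finset.mem_image_of_mem _ he⟩
  calc (A.filter fun e => Q e = Q e₀).card ≤ (Y₁ ×ˢ Y₂).card := Finset.card_le_card h3
    _ = Y₁.card * Y₂.card := Finset.card_product _ _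
    _ ≤ b₁ * b₂ := Nat.mul_le_mul h1' h2'

open Classical in
/-- **bad x bad edges**, bipartite -/
theorem card_bb2 {κ : Type*} (A : Finset (ZZ n × ZZ n)) (Sg₁ Sg₂ : Finset (ZZ n))
    (hE1 : ∀ e ∈ A, e.1 ∈ Sg₁) (hE2 : ∀ e ∈ A, e.2 ∈ Sg₂) (Q : ZZ n × ZZ n → κ)
    (P₂ P₁ : ZZ n × ZZ n → Ideal (MvPolynomial (ZI n) ℝ))
    (hQ2 : ∀ e ∈ A, ∀ e' ∈ A, Q e = Q e' → P₂ e = P₂ e')
    (hQ1 : ∀ e ∈ A, ∀ e' ∈ A, Q e = Q e' → P₁ e = P₁ e')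
    (hbad1 : ∀ e ∈ A, Bad (P₂ e) (pt e.1)) (hbad2 : ∀ e ∈ A, Bad (P₁ e) (pt e.2)) {b₁ b₂ : ℕ}
    (hb1 : ∀ e ∈ A, ∀ Y ⊆ Sg₁, (∀ s ∈ Y, Bad (P₂ e) (pt s)) → Y.card ≤ b₁)
    (hb2 : ∀ e ∈ A, ∀ Y ⊆ Sg₂, (∀ s ∈ Y, Bad (P₁ e) (pt s)) → Y.card ≤ b₂) :
    A.card ≤ (A.image Q).card * (b₁ * b₂) := by
  refine card_fib A Q (fun e₀ he₀ Y hY => ?_) (fun e₀ he₀ Y hY => ?_)
  · refine hb1 e₀ he₀ Y (fun s hs => ?_) (fun s hs => ?_)
    · obtain ⟨e, he, -, rfl⟩ := hY s hs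
      exact hE1 e he
    · obtain ⟨e, he, heq, rfl⟩ := hY s hs
      rw [hQ2 e₀ he₀ e he heq.symm]
      exact hbad1 e he
  · refine hb2 e₀ he₀ Y (fun s hs => ?_) (fun s hs => ?_)
    · obtain ⟨e, he, -, rfl⟩ := hY s hs
      exact hE2 e he
    · obtain ⟨e, he, heq, rfl⟩ := hY s hs
      rw [hQ1 e₀ he₀ e he heq.symm]
      exact hbad2 e he

open Classical in
/-- splitting of the edges into three kinds and a rest `R`, bipartite -/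
theorem card_split2 {α β : Type*} (A R : Finset (α × β)) (Sg₁ : Finset α) (Sg₂ : Finset β)
    (hE1 : ∀ e ∈ A, e.1 ∈ Sg₁) (hE2 : ∀ e ∈ A, e.2 ∈ Sg₂) (p₁ p₂ p₃ : α × β → Prop)
    (hcase : ∀ e ∈ A, e ∈ R ∨ p₁ e ∨ p₂ e ∨ p₃ e) {Y₁ : α → ℕ} {Y₂ : β → ℕ} {Y₃ : ℕ}
    (h1 : ∀ s ∈ Sg₁, ∀ B ⊆ A, (∀ e ∈ B, e.1 = s ∧ p₁ e) → B.card ≤ Y₁ s)
    (h2 : ∀ s ∈ Sg₂, ∀ B ⊆ A, (∀ e ∈ B, e.2 = s ∧ p₂ e) → B.card ≤ Y₂ s)
    (h3 : ∀ B ⊆ A, (∀ e ∈ B, p₃ e) → B.card ≤ Y₃) :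
    A.card ≤ R.card + ((∑ s ∈ Sg₁, Y₁ s) + (∑ s ∈ Sg₂, Y₂ s) + Y₃) := by
  have hsub : A ⊆ R ∪ ((A.filter fun e => p₁ e) ∪ (A.filter fun e => p₂ e) ∪
      (A.filter fun e => p₃ e)) := by
    intro e he
    rcases hcase e he with h | h | h | h
    · exact Finset.mem_union_left _ h
    · exact Finset.mem_union_right _ (Finset.mem_union_left _ (Finset.mem_union_left _
        (Finset.mem_filter.2 ⟨he, h⟩)))
    · exact Finset.mem_union_right _ (Finset.mem_union_left _ (Finset.mem_union_right _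
        (Finset.mem_filter.2 ⟨he, h⟩)))
    · exact Finset.mem_union_right _ (Finset.mem_union_right _ (Finset.mem_filter.2 ⟨he, h⟩))
  have e1 : (A.filter fun e => p₁ e).card ≤ ∑ s ∈ Sg₁, Y₁ s := by
    rw [Finset.card_eq_sum_card_fiberwise (f := Prod.fst) (t := Sg₁)
      (fun e he => hE1 e (Finset.mem_filter.1 he).1)]
    refine Finset.sum_le_sum fun s hs => h1 s hs _ ?_ ?_
    · exact (Finset.filter_subset _ _).trans (Finset.filter_subset _ _)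
    · intro e he
      simp only [Finset.mem_filter] at he
      exact ⟨he.2, he.1.2⟩
  have e2 : (A.filter fun e => p₂ e).card ≤ ∑ s ∈ Sg₂, Y₂ s := by
    rw [Finset.card_eq_sum_card_fiberwise (f := Prod.snd) (t := Sg₂)
      (fun e he => hE2 e (Finset.mem_filter.1 he).1)]
    refine Finset.sum_le_sum fun s hs => h2 s hs _ ?_ ?_
    · exact (Finset.filter_subset _ _).trans (Finset.filter_subset _ _)
    · intro e he
      simp only [Finset.mem_filter] at he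
      exact ⟨he.2, he.1.2⟩
  calc A.card ≤ _ := Finset.card_le_card hsub
    _ ≤ _ := Finset.card_union_le _ _
    _ ≤ _ := Nat.add_le_add_left ((Finset.card_union_le _ _).trans
        (Nat.add_le_add ((Finset.card_union_le _ _).trans (Nat.add_le_add e1 e2))
          (h3 _ (Finset.filter_subset _ _) fun e he => (Finset.mem_filter.1 he).2))) _

/-- counted from the first end point; the Hilbert-function alternative only if `q` holds (for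
`σ = n` only the alternative `card ≤ G` has a gain) -/
def CntQ {A : Finset (ZZ n × ZZ n)} {W D σ v : ℕ} (S : Side n A W D σ v) (q : Prop) (N G : ℕ)
    (e : ZZ n × ZZ n) : Prop :=
  (S.cls e).card ≤ G ∨ (q ∧ S.Cnt N G e)

theorem CntQ.cnt {A : Finset (ZZ n × ZZ n)} {W D σ v : ℕ} {S : Side n A W D σ v} {q : Prop}
    {N G : ℕ} {e : ZZ n × ZZ n} (h : CntQ S q N G e) : S.Cnt N G e := by
  rcases h with h | h
  · exact Or.inl h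
  · exact h.2

theorem CntQ.of_cnt {A : Finset (ZZ n × ZZ n)} {W D σ v : ℕ} {S : Side n A W D σ v}
    {N G : ℕ} {e : ZZ n × ZZ n} (h : S.Cnt N G e) : CntQ S True N G e := Or.inr ⟨trivial, h⟩

theorem CntQ.mono {A : Finset (ZZ n × ZZ n)} {W D σ v : ℕ} {S : Side n A W D σ v} {q q' : Prop}
    (hq : q → q') {N G G' : ℕ} (hG : G ≤ G') {e : ZZ n × ZZ n} (h : CntQ S q N G e) :
    CntQ S q' N G' e := by
  rcases h with h | ⟨h1, h | h⟩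
  · exact Or.inl (h.trans hG)
  · exact Or.inl (h.trans hG)
  · exact Or.inr ⟨hq h1, Or.inr h⟩

/-- the count on one leaf for `CntQ` -/
theorem side_countQ {A : Finset (ZZ n × ZZ n)} {W D σ v : ℕ} (S : Side n A W D σ v) (s : ZZ n)
    {τ : Fin (n - σ) → ℕ} (hτ1 : ∀ i, 1 ≤ τ i) (hτ : ∀ i, (S.f s i).totalDegree ≤ τ i)
    (q : Prop) (N g κ : ℕ) (hκ : q → (N + 1) ^ σ ≤ κ) (B : Finset (ZZ n × ZZ n)) (hBA : B ⊆ A)
    (hB : ∀ e ∈ B, e.1 = s ∧ CntQ S q N g e) :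
    B.card ≤ Cs n * D ^ (2 * (n + 1)) * (∏ i, τ i) * (κ + g) := by
  classical
  by_cases hq : q
  · refine le_trans (Finset.card_le_card ?_) ((side_countP S s hτ1 hτ N g).trans
      (Nat.mul_le_mul_left _ (Nat.add_le_add_right (hκ hq) _)))
    intro e he
    simp only [Finset.mem_filter]
    exact ⟨hBA he, (hB e he).1, (hB e he).2.cnt⟩
  · have h1 := side_count_smallP S s hτ1 hτ B hBA (fun e he => (hB e he).1) (g := g)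
      (fun e he => by
        rcases (hB e he).2 with h | h
        · exact h
        · exact absurd h.1 hq)
    refine h1.trans (Nat.mul_le_mul ?_ (Nat.le_add_left _ _))
    refine Nat.mul_le_mul_right _ (Nat.mul_le_mul_right _ ?_)
    unfold Cs
    exact Nat.le_add_right _ _

open Classical in
/-- **the sum of section C, bipartite**: every edge is in the rest `R`, or countable from one end,
or bad x bad -/
theorem card_main2 {κ : Type*} {A : Finset (ZZ n × ZZ n)} {W D σ₁ σ₂ v₁ v₂ : ℕ}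
    (S₁ : Side n A W D σ₁ v₂) (S₂ : Side n (swp A) W D σ₂ v₁) (Sg₁ Sg₂ : Finset (ZZ n))
    (hE1 : ∀ e ∈ A, e.1 ∈ Sg₁) (hE2 : ∀ e ∈ A, e.2 ∈ Sg₂) (Q : ZZ n × ZZ n → κ)
    (hQ2 : ∀ e ∈ A, ∀ e' ∈ A, Q e = Q e' → S₁.Pr e = S₁.Pr e')
    (hQ1 : ∀ e ∈ A, ∀ e' ∈ A, Q e = Q e' → S₂.Pr e.swap = S₂.Pr e'.swap)
    {X b₁ b₂ : ℕ} {Y₁ Y₂ : ZZ n → ℕ} (R : Finset (ZZ n × ZZ n)) (p₁ p₂ : ZZ n × ZZ n → Prop)
    (hcase : ∀ e ∈ A, e ∈ R ∨ p₁ e ∨ p₂ e.swap ∨ BB S₁ S₂ e)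
    (hL1 : ∀ s ∈ Sg₁, ∀ B ⊆ A, (∀ e ∈ B, e.1 = s ∧ p₁ e) → B.card ≤ Y₁ s)
    (hL2 : ∀ s ∈ Sg₂, ∀ B ⊆ swp A, (∀ e ∈ B, e.1 = s ∧ p₂ e) → B.card ≤ Y₂ s)
    (hX : v₁ = 0 → v₂ = 0 → (A.image Q).card ≤ X)
    (hb1 : v₁ = 0 → v₂ = 0 → ∀ e ∈ A, ∀ Y ⊆ Sg₁, (∀ s ∈ Y, Bad (S₁.Pr e) (pt s)) → Y.card ≤ b₁)
    (hb2 : v₁ = 0 → v₂ = 0 → ∀ e ∈ A, ∀ Y ⊆ Sg₂, (∀ s ∈ Y, Bad (S₂.Pr e.swap) (pt s)) →
      Y.card ≤ b₂) :
    A.card ≤ R.card + ((∑ s ∈ Sg₁, Y₁ s) + (∑ s ∈ Sg₂, Y₂ s) + X * (b₁ * b₂)) := by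
  refine card_split2 A R Sg₁ Sg₂ hE1 hE2 p₁ (fun e => p₂ e.swap)
    (fun e => BB S₁ S₂ e) hcase hL1 ?_ ?_
  · intro s hs B hB hBp
    have h1 := hL2 s hs (swp B) (fun e he => mem_swp.2 (hB (mem_swp.1 he))) (fun e he => by
      have h2 := hBp _ (mem_swp.1 he)
      exact ⟨h2.1, by simpa using h2.2⟩)
    have h3 : (swp B).card = B.card := Finset.card_map _
    rwa [h3] at h1
  · intro Z hZA hZB
    rcases Finset.eq_empty_or_nonempty Z with h0 | h0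
    · rw [h0]; simp
    obtain ⟨e₀, he₀⟩ := h0
    have hv : v₁ = 0 ∧ v₂ = 0 := by
      have := hZB e₀ he₀
      exact ⟨this.1, this.2.1⟩
    have hmem : ∀ e ∈ Z, e ∈ A ∧ BB S₁ S₂ e := fun e he => ⟨hZA he, hZB e he⟩
    refine (card_bb2 Z Sg₁ Sg₂ (fun e he => hE1 e (hmem e he).1)
      (fun e he => hE2 e (hmem e he).1) Q
      S₁.Pr (fun e => S₂.Pr e.swap) (fun e he e' he' h => hQ2 e (hmem e he).1 e' (hmem e' he').1 h)
      (fun e he e' he' h => hQ1 e (hmem e he).1 e' (hmem e' he').1 h)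
      (fun e he => (hmem e he).2.2.2.1) (fun e he => (hmem e he).2.2.2.2)
      (fun e he => hb1 hv.1 hv.2 e (hmem e he).1)
      (fun e he => hb2 hv.1 hv.2 e (hmem e he).1)).trans ?_
    refine Nat.mul_le_mul_right _ (le_trans (Finset.card_le_card ?_) (hX hv.1 hv.2))
    exact Finset.image_subset_image fun e he => (hmem e he).1

/-- bad points for one side, for a subset of the pairs -/
theorem card_bad_sub {A : Finset (ZZ n × ZZ n)} {W D σ v : ℕ} (S : Side n A W D σ v) (hv : v = 0)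
    (P : Finset (E n)) (B : E n ≃ₗᵢ[ℝ] E n) {t : ℕ} (ht : (dists P).card ≤ t)
    {e : ZZ n × ZZ n} (he : e ∈ A) {Sg₁ : Finset (ZZ n)} (hSg : Sg₁ ⊆ H84.Sg P B) :
    ∀ Y ⊆ Sg₁, (∀ s ∈ Y, Bad (S.Pr e) (pt s)) → Y.card ≤ 2 * (4 * t + 1) ^ σ :=
  fun Y hY hbad => H84.card_bad_side S hv P B ht he Y (hY.trans hSg) hbad

/-- **section C, product of the degrees and bipartite**: the number of edges of `A` from the data
of `Z⁺`, the two sides and the case distinction. `τ₁ s`, `τ₂ r` bound the degrees of the leaf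
equations of `s`, `r`; `τF` those of the first block of `Z⁺`; `R` is a set of remaining edges; the
Hilbert-function alternative on side `i` is only used if `qᵢ`. -/
theorem secC_prod {E0 E1 A : Finset (ZZ n × ZZ n)} {N c₀ c₁ c₂ σ₁ σ₂ W D v₁ v₂ : ℕ}
    (Z : ZData ℝ n E0 E1 A (wh (Crd n) (Pt n) W) N c₀ c₁ c₂ σ₁ σ₂)
    (S₁ : Side n A W D σ₁ v₂) (S₂ : Side n (swp A) W D σ₂ v₁)
    (hK1 : ∀ e ∈ A, ∀ F : MvPolynomial (ZI n) ℝ, rename (fun x => Sum.inr (Sum.inr x)) F ∈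
      germ (edgePt e.1 e.2) Z.F ↔ F ∈ S₁.Pr e)
    (hK2 : ∀ e ∈ A, ∀ F : MvPolynomial (ZI n) ℝ, rename (fun x => Sum.inr (Sum.inl x)) F ∈
      germ (edgePt e.1 e.2) Z.F ↔ F ∈ S₂.Pr e.swap)
    (hhd : ∀ i, Z.h i ∈ Vw ℝ (wh (Crd n) (Pt n) W) (D * W))
    (hhd' : ∀ i, Z.h' i ∈ Vw ℝ (wh (Crd n) (Pt n) W) (D * W))
    (hc₁ : c₁ + v₁ = 2 * (n + 1)) (hc₂ : c₂ + v₂ = 2 * (n + 1))
    -- the degrees
    {τF : Fin c₀ → ℕ} (hτF1 : ∀ i, 1 ≤ τF i) (hτF : ∀ i, (Z.f i).totalDegree ≤ τF i)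
    {τ₁ : ZZ n → Fin (n - σ₁) → ℕ} (hτ₁1 : ∀ s i, 1 ≤ τ₁ s i)
    {τ₂ : ZZ n → Fin (n - σ₂) → ℕ} (hτ₂1 : ∀ s i, 1 ≤ τ₂ s i)
    -- the vertices
    (P : Finset (E n)) (B : E n ≃ₗᵢ[ℝ] E n) {t : ℕ} (ht : (dists P).card ≤ t)
    {Sg₁ Sg₂ : Finset (ZZ n)} (hS1 : Sg₁ ⊆ H84.Sg P B) (hS2 : Sg₂ ⊆ H84.Sg P B)
    (hE1 : ∀ e ∈ A, e.1 ∈ Sg₁) (hE2 : ∀ e ∈ A, e.2 ∈ Sg₂)
    (hτ₁ : ∀ s ∈ Sg₁, ∀ i, (S₁.f s i).totalDegree ≤ τ₁ s i)
    (hτ₂ : ∀ s ∈ Sg₂, ∀ i, (S₂.f s i).totalDegree ≤ τ₂ s i)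
    {N₁ N₂ G₁ G₂ κ₁ κ₂ : ℕ} {q₁ q₂ : Prop} (hκ₁ : q₁ → (N₁ + 1) ^ σ₁ ≤ κ₁)
    (hκ₂ : q₂ → (N₂ + 1) ^ σ₂ ≤ κ₂) (R : Finset (ZZ n × ZZ n))
    (hcase : ∀ e ∈ A, e ∈ R ∨ CntQ S₁ q₁ N₁ G₁ e ∨ CntQ S₂ q₂ N₂ G₂ e.swap ∨ BB S₁ S₂ e) :
    A.card ≤ R.card +
      ((∑ s ∈ Sg₁, Cs n * D ^ (2 * (n + 1)) * (∏ i, τ₁ s i) * (κ₁ + G₁)) +
      (∑ s ∈ Sg₂, Cs n * D ^ (2 * (n + 1)) * (∏ i, τ₂ s i) * (κ₂ + G₂)) +
      (H819.Cx n * D ^ (4 * (n + 1)) * ∏ i, τF i) *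
        ((2 * (4 * t + 1) ^ σ₁) * (2 * (4 * t + 1) ^ σ₂))) := by
  classical
  obtain ⟨X, hX1, hX2⟩ := exists_primesP Z S₁.hW S₁.hD hτF1 hτF hhd hhd' hc₁ hc₂
  refine card_main2 S₁ S₂ Sg₁ Sg₂ hE1 hE2 (H82.Qe Z) ?_ ?_ R _ _ hcase ?_ ?_ ?_ ?_ ?_
  · intro e he e' he' h
    unfold H82.Qe at h
    ext F
    rw [← hK1 e he F, ← hK1 e' he' F, h]
  · intro e he e' he' h
    unfold H82.Qe at h
    ext F
    rw [← hK2 e he F, ← hK2 e' he' F, h]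
  · intro s hs
    exact side_countQ S₁ s (hτ₁1 s) (hτ₁ s hs) q₁ N₁ G₁ κ₁ hκ₁
  · intro s hs
    exact side_countQ S₂ s (hτ₂1 s) (hτ₂ s hs) q₂ N₂ G₂ κ₂ hκ₂
  · intro _ _
    refine le_trans (Finset.card_le_card ?_) hX2
    intro q hq
    obtain ⟨e, he, rfl⟩ := Finset.mem_image.1 hq
    exact hX1 e he
  · intro _ hv e he
    exact card_bad_sub S₁ hv P B ht he hS1
  · intro hv _ e he
    exact card_bad_sub S₂ hv P B ht (mem_swp.2 (by simpa using he)) hS2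

end Vale.Agent.P054.T3.H807
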